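import Vale.Agent.P045.Ryser.CoreBasic

/-!
Steps 1-3 of the core: a small cover consists of the lines of one pencil and few other vertices.
-/

namespace Vale.Agent.P045.Ryser

open Classical Finset

variable {Pt Ln : Type} [Fintype Pt] [Fintype Ln] {g l : ℕ}

/-- The numeric facts used in steps 1-3. -/
lemma Params.facts {R : ℕ} (hp : Params g l R) :
    16 * 576 * (l * l) ≤ g ^ 5 ∧ g ^ 4 * 600 ≤ l * l ∧ 20 ≤ g ^ 2 ∧ 400 ≤ g ∧
      2 * (l + 1) ≤ l * l := by
  have hR := hp.big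
  have hgR : R ^ 4 < g := hp.gLow
  have hR4 : R ≤ R ^ 4 := Nat.le_self_pow (by norm_num) R
  have hgg : g ≤ g ^ 2 := Nat.le_self_pow (by norm_num) g
  have hR2 : R ≤ R ^ 2 := Nat.le_self_pow (by norm_num) R
  have hl1 : g ^ 2 * R ≤ l := hp.lLow.le
  have hl2 : l ≤ 2 * g ^ 2 * R := hp.lHigh
  refine ⟨?_, ?_, by omega, by omega, ?_⟩
  · have h1 : l * l ≤ (2 * g ^ 2 * R) * (2 * g ^ 2 * R) := Nat.mul_le_mul hl2 hl2
    have h2 : 16 * 576 * 4 * R ^ 2 ≤ g := by
      have : 16 * 576 * 4 ≤ R ^ 2 := le_trans (by norm_num) (Nat.pow_le_pow_left hR 2)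
      have h3 := Nat.mul_le_mul this (le_refl (R ^ 2))
      have h4 : R ^ 2 * R ^ 2 = R ^ 4 := by ring
      omega
    calc 16 * 576 * (l * l) ≤ 16 * 576 * ((2 * g ^ 2 * R) * (2 * g ^ 2 * R)) :=
          Nat.mul_le_mul_left _ h1
      _ = (16 * 576 * 4 * R ^ 2) * g ^ 4 := by ring
      _ ≤ g * g ^ 4 := Nat.mul_le_mul_right _ h2
      _ = g ^ 5 := by ring
  · calc g ^ 4 * 600 ≤ g ^ 4 * R ^ 2 := Nat.mul_le_mul_left _ (by omega)
      _ = g ^ 2 * R * (g ^ 2 * R) := by ring
      _ ≤ l * l := Nat.mul_le_mul hl1 hl1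
  · have : 1 * R ≤ g ^ 2 * R := Nat.mul_le_mul_right _ (by omega)
    nlinarith

namespace Plane

variable (P : Plane Pt Ln l)

/-- A union of lines is small. -/
lemma card_union_le (L : Finset Ln) :
    (Finset.univ.filter fun x => ∃ h ∈ L, x ∈ P.pts h).card ≤ L.card * (l * l) + 1 := by
  induction L using Finset.induction_on with
  | empty => simp
  | insert h L hh ih =>
    have hsplit : (Finset.univ.filter fun x => ∃ k ∈ insert h L, x ∈ P.pts k) =
        (Finset.univ.filter fun x => ∃ k ∈ L, x ∈ P.pts k) ∪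
          ((P.pts h).filter fun x => ¬∃ k ∈ L, x ∈ P.pts k) := by
      ext x
      simp only [Finset.mem_filter, Finset.mem_univ, true_and, Finset.mem_union,
        Finset.exists_mem_insert]
      by_cases he : ∃ k ∈ L, x ∈ P.pts k <;> simp [he]
    rw [hsplit, card_insert_of_notMem hh]
    refine (Finset.card_union_le _ _).trans ?_
    rcases L.eq_empty_or_nonempty with rfl | ⟨k, hk⟩
    · simp [P.card_pts]
    · obtain ⟨x, ⟨hxh, hxk⟩, -⟩ := P.meet h k fun e => hh (e ▸ hk)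
      have h1 : ((P.pts h).filter fun x => ¬∃ k ∈ L, x ∈ P.pts k).card + 1 ≤ (P.pts h).card := by
        refine Finset.card_lt_card ((Finset.filter_subset _ _).ssubset_of_ne fun e => ?_)
        rw [← e] at hxh
        exact (mem_filter.1 hxh).2 ⟨k, hk, hxk⟩
      rw [P.card_pts] at h1
      nlinarith

/-- Lines of a pencil meet every other line in points of positive excess. -/
lemma pencil_excess (L : Finset Ln) (O : Pt) :
    (L.filter fun h => O ∈ P.pts h).card * (L.filter fun h => O ∉ P.pts h).card ≤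
      ∑ x, ((L.filter fun h => x ∈ P.pts h).card - 1) := by
  set P0 := L.filter fun h => O ∈ P.pts h
  set Nf := L.filter fun h => O ∉ P.pts h
  have hex : ∀ p ∈ P0 ×ˢ Nf, ∃ x, x ∈ P.pts p.1 ∧ x ∈ P.pts p.2 := by
    intro p hp
    obtain ⟨h1, h2⟩ := mem_product.1 hp
    exact (P.meet p.1 p.2 fun e => (mem_filter.1 h2).2 (e ▸ (mem_filter.1 h1).2)).exists
  choose pt hpt using hex
  rw [← card_product, ← card_attach,
    show ∑ x, ((L.filter fun h => x ∈ P.pts h).card - 1) = (Finset.univ.sigma fun x =>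
      Finset.range ((L.filter fun h => x ∈ P.pts h).card - 1)).card by simp]
  -- send a pair to the meeting point and the line not through `O`
  refine card_le_card_of_injOn
    (fun p => ⟨pt p.1 p.2, ((L.filter fun h => pt p.1 p.2 ∈ P.pts h).filter
      fun h => O ∉ P.pts h).equivFin ⟨p.1.2, ?_⟩⟩) ?_ ?_
  · exact mem_filter.2 ⟨mem_filter.2 ⟨(mem_filter.1 (mem_product.1 p.2).2).1, (hpt p.1 p.2).2⟩,
      (mem_filter.1 (mem_product.1 p.2).2).2⟩
  · intro p _
    refine mem_sigma.2 ⟨mem_univ _, mem_range.2 (lt_of_lt_of_le (Fin.isLt _) ?_)⟩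
    refine Nat.le_sub_one_of_lt (card_lt_card ((filter_subset _ _).ssubset_of_ne fun e => ?_))
    have h1 : p.1.1 ∈ L.filter fun h => pt p.1 p.2 ∈ P.pts h :=
      mem_filter.2 ⟨(mem_filter.1 (mem_product.1 p.2).1).1, (hpt p.1 p.2).1⟩
    rw [← e] at h1
    exact (mem_filter.1 h1).2 (mem_filter.1 (mem_product.1 p.2).1).2
  · intro p _ p' _ e
    simp only [Sigma.mk.injEq] at e
    obtain ⟨e1, e2⟩ := e
    have key : ∀ (S S' : Finset Ln) (a : S) (b : S'), S = S' →
        (S.equivFin a : ℕ) = S'.equivFin b → a.1 = b.1 := by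
      rintro S _ a b rfl e
      exact congrArg Subtype.val (S.equivFin.injective (Fin.ext e))
    have hk : p.1.2 = p'.1.2 := key _ _ _ _ (by rw [e1]) (eq_of_heq e2)
    have hxO : pt p.1 p.2 ≠ O := fun e' =>
      (mem_filter.1 (mem_product.1 p.2).2).2 (e' ▸ (hpt p.1 p.2).2)
    have hh : p.1.1 = p'.1.1 := (P.join _ _ hxO).unique
      ⟨(hpt p.1 p.2).1, (mem_filter.1 (mem_product.1 p.2).1).2⟩
      ⟨e1 ▸ (hpt p'.1 p'.2).1, (mem_filter.1 (mem_product.1 p'.2).1).2⟩
    exact Subtype.ext (Prod.ext hh hk)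

/-- Pairs of lines meet in points of positive excess. -/
lemma pairs_le (L : Finset Ln) {R0 : ℕ} (hR0 : ∀ x, (L.filter fun h => x ∈ P.pts h).card ≤ R0) :
    L.card * (L.card - 1) ≤ R0 * ∑ x, ((L.filter fun h => x ∈ P.pts h).card - 1) := by
  have h1 : L.offDiag.card ≤ ∑ x, (L.filter fun h => x ∈ P.pts h).card *
      ((L.filter fun h => x ∈ P.pts h).card - 1) := by
    have : L.offDiag ⊆ Finset.univ.biUnion fun x =>
        (L.filter fun h => x ∈ P.pts h).offDiag := by
      rintro ⟨h, k⟩ hk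
      obtain ⟨hh, hk', hne⟩ := mem_offDiag.1 hk
      obtain ⟨x, ⟨h1, h2⟩, -⟩ := P.meet h k hne
      exact mem_biUnion.2 ⟨x, mem_univ x,
        mem_offDiag.2 ⟨mem_filter.2 ⟨hh, h1⟩, mem_filter.2 ⟨hk', h2⟩, hne⟩⟩
    refine (card_le_card this).trans (card_biUnion_le.trans_eq (sum_congr rfl fun x _ => ?_))
    rw [offDiag_card, Nat.mul_sub_one]
  rw [offDiag_card, ← Nat.mul_sub_one] at h1
  refine h1.trans ((sum_le_sum fun x _ => Nat.mul_le_mul_right _ (hR0 x)).trans ?_)
  rw [mul_sum]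

end Plane

/-- A point of large multiplicity carries almost all lines. -/
lemma centre_arith {m R0 q g : ℕ} (hg0 : 0 < g) (hq0 : 0 < q) (hm : q ≤ m + 8 * g ^ 2) (hg : 600 * g ^ 2 ≤ q)
    (hg4 : g ^ 4 * 600 ≤ q) (hR0m : R0 ≤ m) (hmq : m ≤ 4 * q)
    (hpair : m * (m - 1) ≤ R0 * (5 * g ^ 2 * q)) (hfor : R0 * (m - R0) ≤ 5 * g ^ 2 * q) :
    m - R0 ≤ 21 * g ^ 2 := by
  have hm2 : 3 * q ≤ 4 * m := by omega
  have hg1 : g ^ 2 ≤ g ^ 4 := by
    rcases Nat.eq_zero_or_pos g with rfl | h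
    · norm_num
    · exact Nat.pow_le_pow_right h (by norm_num)
  have hbig : 600 ≤ q := by
    have := Nat.one_le_pow 2 g hg0
    omega
  have h1 : q * q ≤ R0 * (10 * g ^ 2 * q) := by
    have e1 : (3 * q) * (3 * q) ≤ (4 * m) * (4 * m) := Nat.mul_le_mul hm2 hm2
    have e2 : m * m = m * (m - 1) + m := by
      rw [← Nat.mul_succ, Nat.succ_eq_add_one, Nat.sub_add_cancel (by omega)]
    have e3 : 600 * q ≤ q * q := Nat.mul_le_mul_right q hbig
    nlinarith
  have h2 : q ≤ R0 * (10 * g ^ 2) := Nat.le_of_mul_le_mul_left (by linarith) hq0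
  have h3 : m - R0 ≤ q / 4 := by
    rw [Nat.le_div_iff_mul_le (by norm_num)]
    refine Nat.le_of_mul_le_mul_left ?_ hq0
    calc q * ((m - R0) * 4) ≤ R0 * (10 * g ^ 2) * ((m - R0) * 4) := Nat.mul_le_mul_right _ h2
      _ = R0 * (m - R0) * (40 * g ^ 2) := by ring
      _ ≤ 5 * g ^ 2 * q * (40 * g ^ 2) := Nat.mul_le_mul_right _ hfor
      _ = q * (200 * g ^ 4) := by ring
      _ ≤ _ := Nat.mul_le_mul_left _ (by omega)
  have h4 : q ≤ 4 * R0 := by omega
  refine Nat.le_of_mul_le_mul_left ?_ hq0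
  calc q * (m - R0) ≤ 4 * R0 * (m - R0) := Nat.mul_le_mul_right _ h4
    _ = 4 * (R0 * (m - R0)) := by ring
    _ ≤ 4 * (5 * g ^ 2 * q) := Nat.mul_le_mul_left _ hfor
    _ ≤ _ := by nlinarith

namespace Setup

variable (Z : Setup Pt Ln g l)

/-- The vertices of the lines outside the families. -/
def IsLineVertex (h : Ln) (q : Cls Z × Key Ln g) : Prop :=
  ∃ hh : h ≠ Z.plane.inf, (∀ s, h ∉ Z.plane.fam s) ∧
    q = (Sum.inl (Z.plane.infPt hh), Sum.inl (h, none))

/-- A vertex is either a line, or its points lie in a small box. -/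
lemma line_or_box {R : ℕ} (hG : Z.Good R) (hl : g ^ 3 ≤ 24 * (l * l)) (c : Cls Z) (κ : Key Ln g) :
    (∃ h, Z.IsLineVertex h (c, κ)) ∨ ∃ (s : Bool) (A B : Finset Ln),
      A.card * g ^ 3 ≤ 24 * (l * l) ∧ B.card * g ^ 2 ≤ 24 * (l * l) ∧
      ∀ x, Z.InS x → Z.key c x = κ →
        Z.plane.lineOf s x ∈ A ∧ Z.plane.lineOf (!s) x ∈ B := by
  by_cases hne : ∃ x, Z.InS x ∧ Z.key c x = κ
  swap
  · exact Or.inr ⟨false, ∅, ∅, by simp, by simp, fun x hx hk => absurd ⟨x, hx, hk⟩ hne⟩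
  obtain ⟨x₀, hx₀, hk₀⟩ := hne
  have hsplit2 : ∀ s j u, ((Z.plane.fam s).filter fun h =>
      Z.views.split j (Z.idx h) = u).card * g ^ 2 ≤ 24 * (l * l) := fun s j u => by
    refine le_trans ?_ (hG.classSplit s j u)
    rcases Nat.eq_zero_or_pos g with rfl | hg
    · simp
    · exact Nat.mul_le_mul_left _ (Nat.pow_le_pow_right hg (by norm_num))
  rcases c with D | ⟨s', i⟩ | u
  · obtain ⟨u₀, hu₀, hne₀⟩ := Z.dirKey_line hx₀.1 D.2
    obtain ⟨hxk, hDk⟩ := Z.plane.joinLine_spec hne₀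
    set k := Z.plane.joinLine x₀ D.1 with hkdef
    by_cases hfam : ∃ s, k ∈ Z.plane.fam s
    · obtain ⟨s, hks⟩ := hfam
      refine Or.inr ⟨s, {k}, (Z.plane.fam (!s)).filter fun h =>
        Z.views.full none (Z.idx h) = Z.views.full none (Z.idx (Z.plane.lineOf (!s) x₀)),
        by simpa using hl, hG.classFull _ _ _, fun x hx hk => ?_⟩
      have hkey : Z.dirKey D.1 x = Z.dirKey D.1 x₀ := hk.trans hk₀.symm
      obtain ⟨u, hu, hnex⟩ := Z.dirKey_line hx.1 D.2
      have hline : Z.plane.joinLine x D.1 = k := by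
        rw [hu, hu₀, Sum.inl.injEq, Prod.mk.injEq] at hkey
        exact hkey.1
      have hxk' : x ∈ Z.plane.pts k := hline ▸ (Z.plane.joinLine_spec hnex).1
      rw [Z.dirKey_fam hx.1 D.2 hks hxk' hDk, Z.dirKey_fam hx₀.1 D.2 hks hxk hDk, Sum.inl.injEq,
        Prod.mk.injEq, Option.some.injEq] at hkey
      exact ⟨mem_singleton.2 (Z.plane.lineOf_eq (Plane.Off.not_multi Z.plane hx.1 s) hks hxk'),
        mem_filter.2 ⟨Z.plane.lineOf_mem _ _, hkey.2⟩⟩
    · push Not at hfam
      have hinf : k ≠ Z.plane.inf := fun e => hx₀.1.1 (e ▸ hxk)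
      refine Or.inl ⟨k, hinf, hfam, ?_⟩
      have hκ : κ = Z.dirKey D.1 x₀ := hk₀.symm
      rw [hκ, Z.plane.eq_infPt hinf hDk]
      congr 1
      unfold Setup.dirKey
      rw [Z.plane.joinLine_eq (fun e => hx₀.1.1 (by rw [e]; exact (Z.plane.infPt hinf).2)) hxk
        (Z.plane.infPt_mem hinf), if_neg (hfam false), if_neg (hfam true)]
  · have hkey : ∀ x, Z.key (Sum.inr (Sum.inl (s', i))) x = κ →
        Z.slotKey s' i x = Z.slotKey s' i x₀ := fun x hk => hk.trans hk₀.symm
    refine Or.inr ⟨s', ?_⟩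
    by_cases hi : i.val < nSplit g
    · simp only [Setup.slotKey, dif_pos hi, Sum.inr.injEq, Sum.inl.injEq, Prod.mk.injEq] at hkey
      exact ⟨(Z.plane.fam s').filter fun h => Z.views.split (some ⟨i.val, hi⟩) (Z.idx h) =
          Z.views.split (some ⟨i.val, hi⟩) (Z.idx (Z.plane.lineOf s' x₀)),
        (Z.plane.fam (!s')).filter fun h => Z.views.full (some i) (Z.idx h) =
          Z.views.full (some i) (Z.idx (Z.plane.lineOf (!s') x₀)),
        hG.classSplit _ _ _, hG.classFull _ _ _, fun x _ hk =>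
          ⟨mem_filter.2 ⟨Z.plane.lineOf_mem _ _, (hkey x hk).1⟩,
            mem_filter.2 ⟨Z.plane.lineOf_mem _ _, (hkey x hk).2⟩⟩⟩
    · simp only [Setup.slotKey, dif_neg hi, Sum.inl.injEq, Prod.mk.injEq, Option.some.injEq] at hkey
      exact ⟨{Z.plane.lineOf s' x₀},
        (Z.plane.fam (!s')).filter fun h => Z.views.full (some i) (Z.idx h) =
          Z.views.full (some i) (Z.idx (Z.plane.lineOf (!s') x₀)),
        by simpa using hl, hG.classFull _ _ _, fun x _ hk =>
          ⟨mem_singleton.2 (hkey x hk).1,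
            mem_filter.2 ⟨Z.plane.lineOf_mem _ _, (hkey x hk).2⟩⟩⟩
  · refine Or.inr ⟨false, (Z.plane.fam false).filter fun h =>
        Z.views.split none (Z.idx h) = Z.star (Z.plane.lineOf false x₀),
      (Z.plane.fam true).filter fun h =>
        Z.views.split none (Z.idx h) = Z.star (Z.plane.lineOf true x₀),
      hG.classSplit _ _ _, hsplit2 _ _ _, fun x _ hk => ?_⟩
    have h : Z.markKey x = Z.markKey x₀ := hk.trans hk₀.symm
    simp only [Setup.markKey, Sum.inr.injEq, Prod.mk.injEq] at h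
    exact ⟨mem_filter.2 ⟨Z.plane.lineOf_mem _ _, h.1⟩,
      mem_filter.2 ⟨Z.plane.lineOf_mem _ _, h.2.1⟩⟩

/-- Consequences of a box: few points, and few on each line outside the families. -/
lemma box_card {R : ℕ} (hG : Z.Good R) (hl : g ^ 3 ≤ 24 * (l * l)) {c : Cls Z} {κ : Key Ln g}
    (hq : ∀ h, ¬Z.IsLineVertex h (c, κ)) :
    (Finset.univ.filter fun x => Z.InS x ∧ Z.key c x = κ).card * g ^ 5 ≤ 576 * (l * l) * (l * l) ∧
    ∀ h, (∀ s, h ∉ Z.plane.fam s) →
      ((Z.plane.pts h).filter fun x => Z.InS x ∧ Z.key c x = κ).card * g ^ 3 ≤ 24 * (l * l) := by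
  obtain ⟨s, A, B, hA, hB, hsub⟩ := (Z.line_or_box hG hl c κ).resolve_left fun ⟨h, hh⟩ => hq h hh
  constructor
  · have h1 : (Finset.univ.filter fun x => Z.InS x ∧ Z.key c x = κ).card ≤ A.card * B.card := by
      rw [← card_product]
      refine card_le_card_of_injOn (fun x => (Z.plane.lineOf s x, Z.plane.lineOf (!s) x))
        (fun x hx => ?_) (fun x _ y _ e => ?_)
      · obtain ⟨hx, hk⟩ := (mem_filter.1 hx).2
        exact mem_product.2 (hsub x hx hk)
      · exact Z.plane.eq_of_lineOf (congrArg Prod.fst e) (congrArg Prod.snd e)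
    calc _ ≤ A.card * B.card * g ^ 5 := Nat.mul_le_mul_right _ h1
      _ = A.card * g ^ 3 * (B.card * g ^ 2) := by ring
      _ ≤ 24 * (l * l) * (24 * (l * l)) := Nat.mul_le_mul hA hB
      _ = _ := by ring
  · intro h hh
    refine le_trans (Nat.mul_le_mul_right _ (card_le_card_of_injOn (fun x => Z.plane.lineOf s x)
      (fun x hx => ?_) (fun x hx y hy e => ?_))) hA
    · obtain ⟨-, hx, hk⟩ := mem_filter.1 hx
      exact (hsub x hx hk).1
    · exact Z.plane.meet_unique (fun e' => hh s (by rw [e']; exact Z.plane.lineOf_mem s x))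
        (mem_filter.1 hx).1 (Z.plane.mem_lineOf s x) (mem_filter.1 hy).1
        (by rw [show Z.plane.lineOf s x = Z.plane.lineOf s y from e]; exact Z.plane.mem_lineOf s y)

/-- The deleted points. -/
lemma card_deleted {R : ℕ} (hG : Z.Good R) :
    (Finset.univ.filter fun x => Z.plane.Off x ∧ ¬Z.InS x).card * g ^ 3 ≤
      (l * l + l + 1) * (24 * (l * l)) := by
  have h1 : (Finset.univ.filter fun x => Z.plane.Off x ∧ ¬Z.InS x).card ≤
      ∑ a ∈ Z.plane.fam false,
        ((Z.plane.fam true).filter fun b => Z.views.split none (Z.idx b) = Z.star a).card := by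
    rw [← card_sigma]
    refine card_le_card_of_injOn (fun x => ⟨Z.plane.lineOf false x, Z.plane.lineOf true x⟩)
      (fun x hx => ?_) (fun x _ y _ e => ?_)
    · obtain ⟨hoff, hns⟩ := (mem_filter.1 hx).2
      have heq : Z.star (Z.plane.lineOf false x) = Z.star (Z.plane.lineOf true x) := by
        by_contra hne
        exact hns ⟨hoff, fun h => absurd h hne⟩
      exact mem_sigma.2 ⟨Z.plane.lineOf_mem _ _,
        mem_filter.2 ⟨Z.plane.lineOf_mem _ _, heq.symm⟩⟩
    · simp only [Sigma.mk.injEq, heq_eq_eq] at e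
      exact Z.plane.eq_of_lineOf (s := false) e.1 e.2
  refine (Nat.mul_le_mul_right _ h1).trans ?_
  rw [sum_mul]
  refine (sum_le_card_nsmul _ _ (24 * (l * l)) fun a _ => hG.classSplit _ _ _).trans ?_
  rw [smul_eq_mul, Z.plane.card_fam]

set_option maxHeartbeats 400000 in
/-- Steps 1-3: all lines of one pencil outside the families are chosen, and little else. -/
theorem exists_centre {R : ℕ} (hp : Params g l R) (hG : Z.Good R)
    (C : Finset (Cls Z × Key Ln g)) (hC : Z.Covers C)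
    (hcard : C.card ≤ l * l + 2 * alpha g + 1) :
    ∃ (O : Pt) (F : Finset (Cls Z × Key Ln g)),
      F.card ≤ 2 * alpha g + ((Z.plane.fam false).filter fun h => O ∈ Z.plane.pts h).card
        + ((Z.plane.fam true).filter fun h => O ∈ Z.plane.pts h).card
        + (if O ∈ Z.plane.pts Z.plane.inf then 1 else 0) ∧
      ∀ s, ∀ a ∈ Z.plane.fam s, O ∈ Z.plane.pts a → ∀ x, Z.InS x → x ∈ Z.plane.pts a → x ≠ O →
        ∃ c, (c, Z.key c x) ∈ F := by
  obtain ⟨hf1, hf2, hf3, hf4, hf5⟩ := hp.facts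
  have hg0 : 0 < g := by omega
  have hl0 : 0 < l := hp.lPrime.pos
  have hg34 : g ^ 3 ≤ g ^ 4 := Nat.pow_le_pow_right hg0 (by norm_num)
  have hl : g ^ 3 ≤ 24 * (l * l) := by omega
  have hα : alpha g ≤ g ^ 2 := Nat.sub_le _ _
  set L := Finset.univ.filter (fun h => ∃ q ∈ C, Z.IsLineVertex h q) with hLdef
  have hL : ∀ h ∈ L, ∃ q ∈ C, Z.IsLineVertex h q := fun h hh => (mem_filter.1 hh).2
  choose v hv hv' using hL
  set V : Finset (Cls Z × Key Ln g) := L.attach.image fun h => v h.1 h.2 with hVdef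
  have hVinj : Function.Injective fun h : {h // h ∈ L} => v h.1 h.2 := by
    intro h h' e
    obtain ⟨_, -, e1⟩ := hv' h.1 h.2
    obtain ⟨_, -, e2⟩ := hv' h'.1 h'.2
    simp only [e1, e2, Prod.mk.injEq, Sum.inl.injEq, and_true] at e
    exact Subtype.ext e.2
  have hVcard : V.card = L.card := by rw [hVdef, card_image_of_injective _ hVinj, card_attach]
  have hVC : V ⊆ C := fun q hq => by
    obtain ⟨h, -, rfl⟩ := mem_image.1 hq
    exact hv _ _
  set C' := C \ V with hC'def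
  have hC'card : C'.card + L.card = C.card := by
    rw [hC'def, ← hVcard]
    exact card_sdiff_add_card_eq_card hVC
  have hC' : ∀ q ∈ C', ∀ h, ¬Z.IsLineVertex h q := fun q hq h hh => by
    obtain ⟨hqC, hqV⟩ := mem_sdiff.1 hq
    have hhL : h ∈ L := mem_filter.2 ⟨mem_univ _, q, hqC, hh⟩
    refine hqV (mem_image.2 ⟨⟨h, hhL⟩, mem_attach _ _, ?_⟩)
    obtain ⟨_, -, e1⟩ := hv' h hhL
    obtain ⟨_, -, e2⟩ := hh
    exact e1.trans e2.symm
  -- what a line vertex covers
  have hVfib : ∀ h, ∀ hh : h ∈ L, ∀ x, Z.InS x → ∀ c, (c, Z.key c x) = v h hh → x ∈ Z.plane.pts h := by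
    intro h hh x hx c e
    obtain ⟨hinf, -, e1⟩ := hv' h hh
    rw [e1, Prod.mk.injEq] at e
    obtain ⟨rfl, e⟩ := e
    obtain ⟨u, hu, hne⟩ := Z.dirKey_line hx.1 (Z.plane.infPt hinf).2
    rw [show Z.key (Sum.inl (Z.plane.infPt hinf)) x = Z.dirKey (Z.plane.infPt hinf).1 x from rfl,
      hu, Sum.inl.injEq, Prod.mk.injEq] at e
    exact e.1 ▸ (Z.plane.joinLine_spec hne).1
  have hcov : ∀ x, Z.InS x → (∃ h ∈ L, x ∈ Z.plane.pts h) ∨ ∃ q ∈ C', Z.key q.1 x = q.2 := by
    intro x hx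
    obtain ⟨c, hc⟩ := hC x hx
    by_cases hV : (c, Z.key c x) ∈ V
    · obtain ⟨h, -, e⟩ := mem_image.1 hV
      exact Or.inl ⟨h.1, h.2, hVfib h.1 h.2 x hx c e.symm⟩
    · exact Or.inr ⟨(c, Z.key c x), mem_sdiff.2 ⟨hc, hV⟩, rfl⟩
  -- step 1
  set q := l * l with hqdef
  have hlq : l + 1 ≤ q := by omega
  have hq0 : 0 < q := by omega
  set U := C'.biUnion fun t => Finset.univ.filter fun x => Z.InS x ∧ Z.key t.1 x = t.2 with hUdef
  set T := Finset.univ.filter fun x => Z.plane.Off x ∧ ¬Z.InS x with hTdef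
  set W0 := Finset.univ.filter fun x => ¬∃ h ∈ L, x ∈ Z.plane.pts h with hW0def
  have hW0 : W0 ⊆ Z.plane.pts Z.plane.inf ∪ (Finset.univ.filter fun x => Z.plane.Multi false x) ∪
      (Finset.univ.filter fun x => Z.plane.Multi true x) ∪ T ∪ U := by
    intro x hx
    have hx' := (mem_filter.1 hx).2
    simp only [mem_union]
    by_cases h1 : x ∈ Z.plane.pts Z.plane.inf
    · exact Or.inl (Or.inl (Or.inl (Or.inl h1)))
    by_cases h2 : Z.plane.Multi false x
    · exact Or.inl (Or.inl (Or.inl (Or.inr (mem_filter.2 ⟨mem_univ _, h2⟩))))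
    by_cases h3 : Z.plane.Multi true x
    · exact Or.inl (Or.inl (Or.inr (mem_filter.2 ⟨mem_univ _, h3⟩)))
    by_cases h4 : Z.InS x
    · obtain ⟨t, ht, hk⟩ := (hcov x h4).resolve_left hx'
      exact Or.inr (mem_biUnion.2 ⟨t, ht, mem_filter.2 ⟨mem_univ _, h4, hk⟩⟩)
    · exact Or.inl (Or.inr (mem_filter.2 ⟨mem_univ _, ⟨h1, h2, h3⟩, h4⟩))
  have hT : T.card ≤ g ^ 2 * q := by
    have h1 := Z.card_deleted hG
    have h2 : (q + l + 1) * (24 * q) ≤ g ^ 2 * q * g ^ 3 := by
      calc (q + l + 1) * (24 * q) ≤ (2 * q) * (24 * q) := Nat.mul_le_mul_right _ (by omega)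
        _ = 48 * q * q := by ring
        _ ≤ g ^ 5 * q := Nat.mul_le_mul_right _ (by omega)
        _ = _ := by ring
    exact Nat.le_of_mul_le_mul_right (h1.trans h2) (pow_pos hg0 3)
  have hU : 16 * U.card ≤ C'.card * q := by
    refine Nat.le_of_mul_le_mul_right ?_ (pow_pos hg0 5)
    calc 16 * U.card * g ^ 5
        ≤ 16 * (∑ t ∈ C', (Finset.univ.filter fun x => Z.InS x ∧ Z.key t.1 x = t.2).card) * g ^ 5 :=
          Nat.mul_le_mul_right _ (Nat.mul_le_mul_left _ card_biUnion_le)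
      _ = 16 * ∑ t ∈ C', (Finset.univ.filter fun x => Z.InS x ∧ Z.key t.1 x = t.2).card * g ^ 5 := by
          rw [mul_assoc, sum_mul]
      _ ≤ 16 * (C'.card • (576 * q * q)) := Nat.mul_le_mul_left _
          (sum_le_card_nsmul _ _ _ fun t ht => (Z.box_card hG hl (hC' t ht)).1)
      _ = C'.card * q * (16 * 576 * q) := by rw [smul_eq_mul]; ring
      _ ≤ _ := Nat.mul_le_mul_left _ hf1
  have hW0card : 16 * W0.card ≤ 16 * (5 * q + g ^ 2 * q) + C'.card * q := by
    have := (card_le_card hW0).trans ((card_union_le _ _).trans (Nat.add_le_add_right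
      ((card_union_le _ _).trans (Nat.add_le_add_right ((card_union_le _ _).trans
        (Nat.add_le_add_right (card_union_le _ _) _)) _)) _))
    rw [Z.plane.card_pts, Z.plane.card_multi false hl0, Z.plane.card_multi true hl0] at this
    omega
  have hsplit : (Finset.univ.filter fun x => ∃ h ∈ L, x ∈ Z.plane.pts h).card + W0.card =
      q * q + q + 1 := by
    rw [hW0def, card_filter_add_card_filter_not, card_univ, Z.plane.card_pt]
  have hd : C'.card ≤ 4 * g ^ 2 := by
    have h1 := Z.plane.card_union_le L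
    have h3 : q * (15 * C'.card) ≤ q * (16 * (2 * alpha g + 1) + 80 + 16 * g ^ 2) := by
      have h2 := Nat.mul_le_mul_right q hcard
      rw [← hC'card] at h2
      nlinarith
    have := Nat.le_of_mul_le_mul_left h3 hq0
    omega
  have hW : W0.card ≤ 2 * g ^ 2 * q := by
    have := Nat.mul_le_mul_right q hd
    nlinarith
  -- step 2
  set m := L.card with hmdef
  let mult : Pt → ℕ := fun x => (L.filter fun h => x ∈ Z.plane.pts h).card
  have hmult : ∑ x, mult x = m * (q + 1) := Z.plane.sum_mult L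
  have hm : q ≤ m + 8 * g ^ 2 := by
    have h1 := Z.plane.card_union_le L
    refine Nat.le_of_mul_le_mul_left ?_ hq0
    nlinarith
  have hgq : 600 * g ^ 2 ≤ q := by
    have : g ^ 2 ≤ g ^ 4 := Nat.pow_le_pow_right hg0 (by norm_num)
    omega
  obtain ⟨O, hO⟩ : ∃ O, ∀ x, mult x ≤ mult O := by
    have : Nonempty Pt := Fintype.card_pos_iff.1 (by rw [Z.plane.card_pt]; positivity)
    obtain ⟨O, -, hO⟩ := exists_max_image (Finset.univ : Finset Pt) mult univ_nonempty
    exact ⟨O, fun x => hO x (mem_univ x)⟩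
  set R0 := mult O with hR0
  -- the excess
  have hE : ∑ x, (mult x - 1) ≤ 5 * g ^ 2 * q := by
    have e : ∀ x, mult x - 1 + (if ∃ h ∈ L, x ∈ Z.plane.pts h then 1 else 0) = mult x := by
      intro x
      split_ifs with h
      · obtain ⟨h, hh, hxh⟩ := h
        have : 0 < mult x := card_pos.2 ⟨h, mem_filter.2 ⟨hh, hxh⟩⟩
        omega
      · have : mult x = 0 := card_eq_zero.2 (filter_eq_empty_iff.2 fun k hk hxk => h ⟨k, hk, hxk⟩)
        omega
    have h1 : ∑ x, (mult x - 1) +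
        (Finset.univ.filter fun x => ∃ h ∈ L, x ∈ Z.plane.pts h).card = m * (q + 1) := by
      rw [card_filter, ← sum_add_distrib, ← hmult]
      exact sum_congr rfl fun x _ => e x
    have h2 : m * (q + 1) ≤ (q + 2 * alpha g + 1) * (q + 1) := Nat.mul_le_mul_right _ (by omega)
    have h3 : (2 * alpha g + 1) * (q + 1) ≤ (2 * g ^ 2 + 1) * (q + 1) :=
      Nat.mul_le_mul_right _ (by omega)
    nlinarith
  -- pairs of lines, and the lines not through `O`
  have hfor2 : m - R0 ≤ 21 * g ^ 2 := by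
    refine centre_arith hg0 hq0 hm hgq hf2 (card_filter_le _ _) (by omega)
      ((Z.plane.pairs_le L hO).trans (Nat.mul_le_mul_left _ hE)) (le_trans ?_ hE)
    have hsum : R0 + (L.filter fun h => O ∉ Z.plane.pts h).card = m :=
      card_filter_add_card_filter_not (s := L) fun h => O ∈ Z.plane.pts h
    refine le_trans (le_of_eq ?_) (Z.plane.pencil_excess L O)
    rw [← hsum, Nat.add_sub_cancel_left]
  -- step 3
  have hall : ∀ h, (∀ s, h ∉ Z.plane.fam s) → h ≠ Z.plane.inf → O ∈ Z.plane.pts h → h ∈ L := by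
    intro h hfam hinf hOh
    by_contra hhL
    have hbig := hG.lineLarge h hinf hfam
    set Nf := L.filter fun k => O ∉ Z.plane.pts k with hNf
    have hsub : ((Z.plane.pts h).filter fun x => Z.InS x) ⊆ {O} ∪
        (Nf.biUnion fun k => Z.plane.pts h ∩ Z.plane.pts k) ∪
        C'.biUnion fun t => (Z.plane.pts h).filter fun x => Z.InS x ∧ Z.key t.1 x = t.2 := by
      intro x hx
      obtain ⟨hxh, hxS⟩ := mem_filter.1 hx
      simp only [mem_union, mem_singleton, mem_biUnion]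
      rcases hcov x hxS with ⟨k, hk, hxk⟩ | ⟨t, ht, hkey⟩
      · by_cases hOk : O ∈ Z.plane.pts k
        · exact Or.inl (Or.inl (Z.plane.meet_unique (fun e => hhL (by rw [e]; exact hk)) hxh hxk hOh hOk))
        · exact Or.inl (Or.inr ⟨k, mem_filter.2 ⟨hk, hOk⟩, mem_inter.2 ⟨hxh, hxk⟩⟩)
      · exact Or.inr ⟨t, ht, mem_filter.2 ⟨hxh, hxS, hkey⟩⟩
    have hN1 : (Nf.biUnion fun k => Z.plane.pts h ∩ Z.plane.pts k).card ≤ 21 * g ^ 2 := by
      refine card_biUnion_le.trans ((sum_le_card_nsmul _ _ 1 fun k hk => ?_).trans ?_)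
      · exact (Z.plane.card_inter fun e => hhL (by rw [e]; exact (mem_filter.1 hk).1)).le
      · have : R0 + Nf.card = m := card_filter_add_card_filter_not (s := L) fun k => O ∈ Z.plane.pts k
        rw [smul_eq_mul, mul_one]
        omega
    have hN2 : 4 * (C'.biUnion fun t =>
        (Z.plane.pts h).filter fun x => Z.InS x ∧ Z.key t.1 x = t.2).card ≤ q := by
      refine Nat.le_of_mul_le_mul_right ?_ (pow_pos hg0 3)
      calc 4 * _ * g ^ 3 ≤ 4 * (∑ t ∈ C', ((Z.plane.pts h).filter fun x =>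
              Z.InS x ∧ Z.key t.1 x = t.2).card) * g ^ 3 :=
            Nat.mul_le_mul_right _ (Nat.mul_le_mul_left _ card_biUnion_le)
        _ = 4 * ∑ t ∈ C', ((Z.plane.pts h).filter fun x =>
              Z.InS x ∧ Z.key t.1 x = t.2).card * g ^ 3 := by rw [mul_assoc, sum_mul]
        _ ≤ 4 * (C'.card • (24 * q)) := Nat.mul_le_mul_left _
            (sum_le_card_nsmul _ _ _ fun t ht => (Z.box_card hG hl (hC' t ht)).2 h hfam)
        _ ≤ 4 * (4 * g ^ 2 * (24 * q)) := by
            rw [smul_eq_mul]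
            exact Nat.mul_le_mul_left _ (Nat.mul_le_mul_right _ hd)
        _ = q * (384 * g ^ 2) := by ring
        _ ≤ q * g ^ 3 := by
            refine Nat.mul_le_mul_left _ ?_
            rw [show g ^ 3 = g * g ^ 2 by ring]
            exact Nat.mul_le_mul_right _ (by omega)
    have h5 := (card_le_card hsub).trans ((card_union_le _ _).trans
      (Nat.add_le_add_right (card_union_le _ _) _))
    rw [card_singleton] at h5
    omega
  set Gd := Finset.univ.filter fun h => (∀ s, h ∉ Z.plane.fam s) ∧ h ≠ Z.plane.inf ∧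
    O ∈ Z.plane.pts h with hGd
  have hGdL : ∀ h ∈ Gd, h ∈ L := fun h hh =>
    hall h (mem_filter.1 hh).2.1 (mem_filter.1 hh).2.2.1 (mem_filter.1 hh).2.2.2
  set F0 := Gd.attach.image fun h => v h.1 (hGdL h.1 h.2) with hF0
  have hF0card : F0.card = Gd.card := by
    rw [hF0, card_image_of_injective _ fun a b e => ?_, card_attach]
    have := hVinj (a₁ := ⟨a.1, hGdL a.1 a.2⟩) (a₂ := ⟨b.1, hGdL b.1 b.2⟩) e
    exact Subtype.ext (congrArg (fun z : {h // h ∈ L} => z.1) this)
  have hF0C : F0 ⊆ C := fun t ht => by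
    obtain ⟨h, -, rfl⟩ := mem_image.1 ht
    exact hv _ _
  refine ⟨O, C \ F0, ?_, fun s a ha hOa x hx hxa hxO => ?_⟩
  · have hlines := Z.plane.card_lines O
    have hsub : (Finset.univ.filter fun h => O ∈ Z.plane.pts h) ⊆
        ((Z.plane.fam false).filter fun h => O ∈ Z.plane.pts h) ∪
        ((Z.plane.fam true).filter fun h => O ∈ Z.plane.pts h) ∪
        (if O ∈ Z.plane.pts Z.plane.inf then {Z.plane.inf} else ∅) ∪ Gd := by
      intro h hh
      have hOh := (mem_filter.1 hh).2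
      simp only [mem_union]
      by_cases h1 : h ∈ Z.plane.fam false
      · exact Or.inl (Or.inl (Or.inl (mem_filter.2 ⟨h1, hOh⟩)))
      by_cases h2 : h ∈ Z.plane.fam true
      · exact Or.inl (Or.inl (Or.inr (mem_filter.2 ⟨h2, hOh⟩)))
      by_cases h3 : h = Z.plane.inf
      · subst h3
        refine Or.inl (Or.inr ?_)
        simp [hOh]
      · exact Or.inr (mem_filter.2
          ⟨mem_univ _, fun s => by cases s <;> assumption, h3, hOh⟩)
    have h6 := (card_le_card hsub).trans ((card_union_le _ _).trans (Nat.add_le_add_right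
      ((card_union_le _ _).trans (Nat.add_le_add_right (card_union_le _ _) _)) _))
    rw [hlines] at h6
    have h7 : (if O ∈ Z.plane.pts Z.plane.inf then ({Z.plane.inf} : Finset Ln) else ∅).card =
        if O ∈ Z.plane.pts Z.plane.inf then 1 else 0 := by
      split_ifs <;> simp
    have h8 := card_sdiff_add_card_eq_card hF0C
    rw [h7] at h6
    omega
  · obtain ⟨c, hc⟩ := hC x hx
    refine ⟨c, mem_sdiff.2 ⟨hc, fun hF => hxO ?_⟩⟩
    obtain ⟨h, -, e⟩ := mem_image.1 hF
    obtain ⟨hfam, -, hOh⟩ := (mem_filter.1 h.2).2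
    exact Z.plane.meet_unique (fun e' => hfam s (by rw [e']; exact ha))
      (hVfib h.1 _ x hx c e.symm) hxa hOh hOa

end Setup

end Vale.Agent.P045.Ryser
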