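import Vale.Agent.P045.Ryser.CoreBasic

/-!
Step 4 of the core: many lines of one family through a point cannot be served by few vertices.
-/

namespace Vale.Agent.P045.Ryser

open Classical Finset

variable {Pt Ln : Type} [Fintype Pt] [Fintype Ln] {g l : ℕ}

namespace Setup

variable (Z : Setup Pt Ln g l)

/-- The number of pairs (line through `P`, other index) which one vertex can serve. -/
lemma pencil_fiber {R : ℕ} (hG : Z.Good R) (s : Bool) (P : Pt)
    (Φ : Finset (Ln × Fin (g ^ 4))) (c : Cls Z) (κ : Key Ln g)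
    (hΦ : ∀ p ∈ Φ, p.1 ∈ Z.plane.fam s ∧ P ∈ Z.plane.pts p.1 ∧ ∃ x, Z.InS x ∧
      x ∈ Z.plane.pts p.1 ∧ Z.idx (Z.plane.lineOf (!s) x) = p.2 ∧ Z.key c x = κ) :
    Φ.card ≤ (8 * R + 8) * g ^ 2 + (l + 1) := by
  set T := (Z.plane.fam s).filter fun a => P ∈ Z.plane.pts a with hTdef
  have hT : T.card ≤ l + 1 := by
    rcases Z.plane.mult s P with e | e <;> simp only [hTdef] at * <;> omega
  have hg2 : g ≤ g ^ 2 := Nat.le_self_pow (by norm_num) g
  -- the two ways of counting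
  have hprod : ∀ (A : Finset Ln) (B : Finset (Fin (g ^ 4))), (∀ p ∈ Φ, p.1 ∈ A ∧ p.2 ∈ B) →
      A.card ≤ 8 * R + 8 → B.card ≤ g ^ 2 → Φ.card ≤ (8 * R + 8) * g ^ 2 + (l + 1) := by
    intro A B h hA hB
    calc Φ.card ≤ (A ×ˢ B).card := card_le_card fun p hp => mem_product.2 (h p hp)
      _ = A.card * B.card := card_product A B
      _ ≤ (8 * R + 8) * g ^ 2 := Nat.mul_le_mul hA hB
      _ ≤ _ := Nat.le_add_right _ _
  have hline : ∀ k : Ln, (∀ p ∈ Φ, p.1 ≠ k ∧ ∃ x, Z.InS x ∧ x ∈ Z.plane.pts p.1 ∧ x ∈ Z.plane.pts k ∧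
      Z.idx (Z.plane.lineOf (!s) x) = p.2) → Φ.card ≤ (8 * R + 8) * g ^ 2 + (l + 1) := by
    intro k h
    refine le_trans ((card_le_card_of_injOn Prod.fst (t := T) (fun p hp => mem_filter.2
      ⟨(hΦ p hp).1, (hΦ p hp).2.1⟩) ?_).trans hT) (Nat.le_add_left _ _)
    intro p hp p' hp' e
    obtain ⟨hk, x, -, hxa, hxk, hw⟩ := h p hp
    obtain ⟨-, y, -, hya, hyk, hw'⟩ := h p' hp'
    have hxy : x = y := Z.plane.meet_unique hk hxa hxk (by rw [e]; exact hya) hyk
    exact Prod.ext e (by rw [← hw, ← hw', hxy])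
  have hrow : ∀ x, Z.InS x → ∀ p ∈ Φ, x ∈ Z.plane.pts p.1 → Z.plane.lineOf s x = p.1 :=
    fun x hx p hp hxa => Z.plane.lineOf_eq (Plane.Off.not_multi Z.plane hx.1 s) (hΦ p hp).1 hxa
  rcases Φ.eq_empty_or_nonempty with rfl | ⟨p₀, hp₀⟩
  · simp
  obtain ⟨-, -, x₀, hx₀, hxa₀, hw₀, hk₀⟩ := hΦ p₀ hp₀
  rcases c with D | ⟨s', i⟩ | u
  · -- a line through a point of `inf`
    obtain ⟨u₀, hu₀, hne₀⟩ := Z.dirKey_line hx₀.1 D.2
    set k := Z.plane.joinLine x₀ D.1 with hkdef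
    have hsame : ∀ x, Z.InS x → Z.key (Sum.inl D) x = κ →
        x ∈ Z.plane.pts k ∧ D.1 ∈ Z.plane.pts k ∧ Z.dirKey D.1 x = Sum.inl (k, u₀) := by
      intro x hx hk
      have hkey : Z.dirKey D.1 x = Sum.inl (k, u₀) := by
        rw [← hu₀]; exact hk.trans hk₀.symm
      obtain ⟨u, hu, hne⟩ := Z.dirKey_line hx.1 D.2
      rw [hu, Sum.inl.injEq, Prod.mk.injEq] at hkey
      obtain ⟨h1, h2⟩ := Z.plane.joinLine_spec hne
      rw [hkey.1] at h1 h2
      exact ⟨h1, h2, by rw [hu, hkey.1, hkey.2]⟩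
    by_cases hks : k ∈ Z.plane.fam s
    · -- then the line is the only possible `a`
      have hp : ∀ p ∈ Φ, p.1 = k ∧ some (Z.views.full none p.2) = u₀ := by
        intro p hp
        obtain ⟨-, -, x, hx, hxa, hw, hk⟩ := hΦ p hp
        obtain ⟨hxk, hDk, hkey⟩ := hsame x hx hk
        refine ⟨(hrow x hx p hp hxa).symm.trans
          (Z.plane.lineOf_eq (Plane.Off.not_multi Z.plane hx.1 s) hks hxk), ?_⟩
        rw [Z.dirKey_fam hx.1 D.2 hks hxk hDk, hw, Sum.inl.injEq, Prod.mk.injEq] at hkey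
        exact hkey.2
      have h0 := (hp p₀ hp₀).2
      refine hprod {k} (univ.filter fun w => Z.views.full none w = Z.views.full none p₀.2)
        (fun p h => ⟨mem_singleton.2 (hp p h).1, mem_filter.2 ⟨mem_univ _,
          Option.some.inj ((hp p h).2.trans h0.symm)⟩⟩) (by simp) (Z.views.card_full none _).le
    · refine hline k fun p hp => ⟨fun e => hks (e ▸ (hΦ p hp).1), ?_⟩
      obtain ⟨-, -, x, hx, hxa, hw, hk⟩ := hΦ p hp
      exact ⟨x, hx, hxa, (hsame x hx hk).1, hw⟩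
  · -- a slot
    have hkey : ∀ x, Z.InS x → Z.key (Sum.inr (Sum.inl (s', i))) x = κ →
        Z.slotKey s' i x = Z.slotKey s' i x₀ := fun x _ hk => hk.trans hk₀.symm
    by_cases hi : i.val < nSplit g
    · simp only [Setup.slotKey, dif_pos hi, Sum.inr.injEq, Sum.inl.injEq, Prod.mk.injEq] at hkey
      by_cases hs : s' = s
      · subst hs
        refine hprod ((Z.plane.fam s').filter fun a => P ∈ Z.plane.pts a ∧
            Z.views.split (some ⟨i.val, hi⟩) (Z.idx a) =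
              Z.views.split (some ⟨i.val, hi⟩) (Z.idx (Z.plane.lineOf s' x₀)))
          (univ.filter fun w => Z.views.full (some i) w =
            Z.views.full (some i) (Z.idx (Z.plane.lineOf (!s') x₀)))
          (fun p hp => ?_) (hG.pencilSplit s' P _ _) (Z.views.card_full _ _).le
        obtain ⟨ha, hPa, x, hx, hxa, hw, hk⟩ := hΦ p hp
        obtain ⟨e1, e2⟩ := hkey x hx hk
        rw [hrow x hx p hp hxa] at e1
        rw [hw] at e2
        exact ⟨mem_filter.2 ⟨ha, hPa, e1⟩, mem_filter.2 ⟨mem_univ _, e2⟩⟩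
      · have hs' : s' = !s := by cases s <;> cases s' <;> simp at hs ⊢
        subst hs'
        simp only [Bool.not_not] at hkey
        refine hprod ((Z.plane.fam s).filter fun a => P ∈ Z.plane.pts a ∧
            Z.views.full (some i) (Z.idx a) = Z.views.full (some i) (Z.idx (Z.plane.lineOf s x₀)))
          (univ.filter fun w => Z.views.split (some ⟨i.val, hi⟩) w =
            Z.views.split (some ⟨i.val, hi⟩) (Z.idx (Z.plane.lineOf (!s) x₀)))
          (fun p hp => ?_) (hG.pencilFull s P _ _) ((Z.views.card_split _ _).le.trans hg2)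
        obtain ⟨ha, hPa, x, hx, hxa, hw, hk⟩ := hΦ p hp
        obtain ⟨e1, e2⟩ := hkey x hx hk
        rw [hw] at e1
        rw [hrow x hx p hp hxa] at e2
        exact ⟨mem_filter.2 ⟨ha, hPa, e2⟩, mem_filter.2 ⟨mem_univ _, e1⟩⟩
    · simp only [Setup.slotKey, dif_neg hi, Sum.inl.injEq, Prod.mk.injEq, Option.some.injEq] at hkey
      by_cases hs : s' = s
      · subst hs
        refine hprod {Z.plane.lineOf s' x₀}
          (univ.filter fun w => Z.views.full (some i) w =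
            Z.views.full (some i) (Z.idx (Z.plane.lineOf (!s') x₀)))
          (fun p hp => ?_) (by simp) (Z.views.card_full _ _).le
        obtain ⟨-, -, x, hx, hxa, hw, hk⟩ := hΦ p hp
        obtain ⟨e1, e2⟩ := hkey x hx hk
        rw [hrow x hx p hp hxa] at e1
        rw [hw] at e2
        exact ⟨mem_singleton.2 e1, mem_filter.2 ⟨mem_univ _, e2⟩⟩
      · have hs' : s' = !s := by cases s <;> cases s' <;> simp at hs ⊢
        subst hs'
        refine hline (Z.plane.lineOf (!s) x₀) fun p hp =>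
          ⟨Z.plane.fam_ne_not (hΦ p hp).1 (Z.plane.lineOf_mem _ _), ?_⟩
        obtain ⟨-, -, x, hx, hxa, hw, hk⟩ := hΦ p hp
        exact ⟨x, hx, hxa, (hkey x hx hk).1 ▸ Z.plane.mem_lineOf (!s) x, hw⟩
  · -- the marked class
    refine hprod ((Z.plane.fam s).filter fun a => P ∈ Z.plane.pts a ∧
        Z.views.split none (Z.idx a) = Z.star (Z.plane.lineOf s x₀))
      (univ.filter fun w => Z.views.split none w = Z.star (Z.plane.lineOf (!s) x₀))
      (fun p hp => ?_) (hG.pencilSplit s P _ _) ((Z.views.card_split _ _).le.trans hg2)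
    obtain ⟨ha, hPa, x, hx, hxa, hw, hk⟩ := hΦ p hp
    have h : Z.markKey x = Z.markKey x₀ := hk.trans hk₀.symm
    simp only [Setup.markKey, Sum.inr.injEq, Prod.mk.injEq] at h
    have e1 : Z.star (Z.plane.lineOf s x) = Z.star (Z.plane.lineOf s x₀) ∧
        Z.star (Z.plane.lineOf (!s) x) = Z.star (Z.plane.lineOf (!s) x₀) := by
      cases s
      · exact ⟨h.1, h.2.1⟩
      · exact ⟨h.2.1, h.1⟩
    rw [hrow x hx p hp hxa] at e1
    unfold Setup.star at e1 ⊢
    rw [hw] at e1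
    exact ⟨mem_filter.2 ⟨ha, hPa, e1.1⟩, mem_filter.2 ⟨mem_univ _, e1.2⟩⟩

/-- Step 4: the lines of one family through a multiple point need many vertices. -/
theorem pencil_count {R : ℕ} (hG : Z.Good R) {s : Bool} {P : Pt}
    (hP : Z.plane.Multi s P) (C : Finset (Cls Z × Key Ln g))
    (hC : ∀ a ∈ Z.plane.fam s, P ∈ Z.plane.pts a → ∀ x, Z.InS x → x ∈ Z.plane.pts a →
      ∃ c : Cls Z, (c, Z.key c x) ∈ C) :
    (l + 1) * g ^ 4 ≤ C.card * ((8 * R + 8) * g ^ 2 + (l + 1)) := by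
  set T := (Z.plane.fam s).filter fun a => P ∈ Z.plane.pts a with hTdef
  set cells := T ×ˢ (univ : Finset (Fin (g ^ 4))) with hcells
  have hT : T.card = l + 1 := hP
  have hcard : cells.card = (l + 1) * g ^ 4 := by
    rw [hcells, card_product, hT, card_univ, Fintype.card_fin]
  have hex : ∀ p ∈ cells, ∃ q ∈ C, ∃ x, Z.InS x ∧ x ∈ Z.plane.pts p.1 ∧
      Z.idx (Z.plane.lineOf (!s) x) = p.2 ∧ Z.key q.1 x = q.2 := by
    intro p hp
    obtain ⟨ha, hPa⟩ := mem_filter.1 (mem_product.1 hp).1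
    obtain ⟨x, hx, hxa, hw⟩ := hG.rich s p.1 ha p.2
    obtain ⟨c, hc⟩ := hC p.1 ha hPa x hx hxa
    exact ⟨(c, Z.key c x), hc, x, hx, hxa, hw, rfl⟩
  choose q hq hq' using hex
  rw [← hcard, Nat.mul_comm, ← Finset.card_attach]
  refine le_trans (card_le_mul_card_image (f := fun p : {p // p ∈ cells} => q p.1 p.2) cells.attach
    ((8 * R + 8) * g ^ 2 + (l + 1)) fun b _ => ?_) (Nat.mul_le_mul_left _ (card_le_card fun b hb => ?_))
  · refine le_trans (card_image_of_injective _ Subtype.val_injective).ge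
      (Z.pencil_fiber hG s P _ b.1 b.2 fun p hp => ?_)
    obtain ⟨p', hp', rfl⟩ := mem_image.1 hp
    obtain ⟨ha, hPa⟩ := mem_filter.1 (mem_product.1 p'.2).1
    obtain ⟨x, hx, hxa, hw, hk⟩ := hq' p'.1 p'.2
    rw [(mem_filter.1 hp').2] at hk
    exact ⟨ha, hPa, x, hx, hxa, hw, hk⟩
  · obtain ⟨p', -, rfl⟩ := mem_image.1 hb
    exact hq p'.1 p'.2

/-- Few vertices cannot serve all lines of a family through a multiple point. -/
theorem pencil_false {R : ℕ} (hp : Params g l R) (hG : Z.Good R) {s : Bool} {P : Pt}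
    (hP : Z.plane.Multi s P) (C : Finset (Cls Z × Key Ln g))
    (hC : ∀ a ∈ Z.plane.fam s, P ∈ Z.plane.pts a → ∀ x, Z.InS x → x ∈ Z.plane.pts a →
      ∃ c : Cls Z, (c, Z.key c x) ∈ C)
    (hsmall : C.card ≤ 2 * (l + 1) + 100 * g ^ 2) : False := by
  have h := Z.pencil_count hG hP C hC
  have h0 := hp.big
  have h1 : (8 * R + 8) * g ^ 2 + (l + 1) ≤ 17 * (l + 1) := by
    have := hp.lLow
    have : g ^ 2 ≤ g ^ 2 * R := Nat.le_mul_of_pos_right _ (by omega)
    nlinarith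
  have h2 : (l + 1) * g ^ 4 ≤ (l + 1) * (34 * (l + 1) + 1700 * g ^ 2) :=
    h.trans ((Nat.mul_le_mul hsmall h1).trans_eq (by ring))
  have h3 := Nat.le_of_mul_le_mul_left h2 (Nat.succ_pos l)
  have hg2 : 1 ≤ g ^ 2 := Nat.one_le_pow _ _ hp.gPrime.pos
  have hR1 : 1 ≤ g ^ 2 * R := Nat.one_le_iff_ne_zero.2
    (Nat.mul_ne_zero (by omega) (by omega))
  have h4 : g ^ 2 * g ^ 2 ≤ g ^ 2 * (102 * R + 1700) := by
    have := hp.lHigh
    calc g ^ 2 * g ^ 2 = g ^ 4 := by ring
      _ ≤ _ := h3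
      _ ≤ _ := by nlinarith
  have h5 := Nat.le_of_mul_le_mul_left h4 (by omega)
  have h6 : R * R < g ^ 2 := by
    have hR : R ≤ R ^ 4 := Nat.le_self_pow (by norm_num) R
    have := hp.gLow
    rw [sq]
    exact Nat.mul_lt_mul'' (by omega) (by omega)
  nlinarith

end Setup

end Vale.Agent.P045.Ryser
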