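import Vale.Agent.P045.Ryser.Defs

/-!
Basic facts: lines through points, keys on a family line, the intersecting property.
-/

namespace Vale.Agent.P045.Ryser

open Classical

variable {Pt Ln : Type} [Fintype Pt] [Fintype Ln] {g l : ℕ}

namespace Plane

variable (P : Plane Pt Ln l)

lemma fam_ne_inf {s : Bool} {h : Ln} (hh : h ∈ P.fam s) : h ≠ P.inf :=
  fun e => P.inf_notMem s (e ▸ hh)

lemma fam_ne_not {s : Bool} {a b : Ln} (ha : a ∈ P.fam s) (hb : b ∈ P.fam (!s)) : a ≠ b := by
  rintro rfl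
  cases s
  · exact Finset.disjoint_left.1 P.disj ha hb
  · exact Finset.disjoint_left.1 P.disj hb ha

lemma meet_unique {h k : Ln} (hk : h ≠ k) {x y : Pt} (xh : x ∈ P.pts h) (xk : x ∈ P.pts k)
    (yh : y ∈ P.pts h) (yk : y ∈ P.pts k) : x = y :=
  (P.meet h k hk).unique ⟨xh, xk⟩ ⟨yh, yk⟩

lemma card_inter {h k : Ln} (hk : h ≠ k) : (P.pts h ∩ P.pts k).card = 1 := by
  obtain ⟨x, hx, hu⟩ := P.meet h k hk
  rw [Finset.card_eq_one]
  refine ⟨x, Finset.ext fun y => ?_⟩
  simp only [Finset.mem_inter, Finset.mem_singleton]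
  exact ⟨hu y, fun e => e ▸ hx⟩

lemma exists_fam (s : Bool) (x : Pt) : ∃ h, h ∈ P.fam s ∧ x ∈ P.pts h := by
  have h0 : 0 < ((P.fam s).filter fun h => x ∈ P.pts h).card := by
    rcases P.mult s x with e | e <;> omega
  obtain ⟨h, hh⟩ := Finset.card_pos.1 h0
  exact ⟨h, Finset.mem_filter.1 hh⟩

lemma lineOf_spec (s : Bool) (x : Pt) :
    P.lineOf s x ∈ P.fam s ∧ x ∈ P.pts (P.lineOf s x) :=
  Classical.epsilon_spec (P.exists_fam s x)

lemma lineOf_mem (s : Bool) (x : Pt) : P.lineOf s x ∈ P.fam s := (P.lineOf_spec s x).1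

lemma mem_lineOf (s : Bool) (x : Pt) : x ∈ P.pts (P.lineOf s x) := (P.lineOf_spec s x).2

lemma lineOf_eq {s : Bool} {x : Pt} {h : Ln} (hx : ¬P.Multi s x) (hh : h ∈ P.fam s)
    (hxh : x ∈ P.pts h) : P.lineOf s x = h := by
  have h1 : ((P.fam s).filter fun h => x ∈ P.pts h).card ≤ 1 := by
    rcases P.mult s x with e | e
    · omega
    · exact absurd e hx
  exact Finset.card_le_one.1 h1 _ (Finset.mem_filter.2 (P.lineOf_spec s x)) _
    (Finset.mem_filter.2 ⟨hh, hxh⟩)

lemma Off.not_multi {x : Pt} (hx : P.Off x) (s : Bool) : ¬P.Multi s x := by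
  cases s
  · exact hx.2.1
  · exact hx.2.2

lemma Off.lineOf_eq {x : Pt} (hx : P.Off x) {s : Bool} {h : Ln} (hh : h ∈ P.fam s)
    (hxh : x ∈ P.pts h) : P.lineOf s x = h :=
  P.lineOf_eq (Off.not_multi P hx s) hh hxh

/-- A point is determined by its two lines. -/
lemma eq_of_lineOf {s : Bool} {x y : Pt} (h1 : P.lineOf s x = P.lineOf s y)
    (h2 : P.lineOf (!s) x = P.lineOf (!s) y) : x = y :=
  P.meet_unique (P.fam_ne_not (P.lineOf_mem s x) (P.lineOf_mem (!s) x)) (P.mem_lineOf s x)
    (P.mem_lineOf (!s) x) (h1 ▸ P.mem_lineOf s y) (h2 ▸ P.mem_lineOf (!s) y)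

lemma joinLine_eq {x y : Pt} (hxy : x ≠ y) {h : Ln} (hx : x ∈ P.pts h) (hy : y ∈ P.pts h) :
    P.joinLine x y = h := by
  have hs : x ∈ P.pts (P.joinLine x y) ∧ y ∈ P.pts (P.joinLine x y) :=
    Classical.epsilon_spec (p := fun h => x ∈ P.pts h ∧ y ∈ P.pts h) ⟨h, hx, hy⟩
  exact (P.join x y hxy).unique hs ⟨hx, hy⟩

lemma joinLine_spec {x y : Pt} (hxy : x ≠ y) :
    x ∈ P.pts (P.joinLine x y) ∧ y ∈ P.pts (P.joinLine x y) :=
  Classical.epsilon_spec (p := fun h => x ∈ P.pts h ∧ y ∈ P.pts h) (P.join x y hxy).exists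

/-- The point of `inf` on another line. -/
noncomputable def infPt {h : Ln} (hh : h ≠ P.inf) : {x : Pt // x ∈ P.pts P.inf} :=
  ⟨(P.meet h P.inf hh).choose, (P.meet h P.inf hh).choose_spec.1.2⟩

lemma infPt_mem {h : Ln} (hh : h ≠ P.inf) : (P.infPt hh).1 ∈ P.pts h :=
  (P.meet h P.inf hh).choose_spec.1.1

lemma eq_infPt {h : Ln} (hh : h ≠ P.inf) {x : {x : Pt // x ∈ P.pts P.inf}}
    (hx : x.1 ∈ P.pts h) : x = P.infPt hh :=
  Subtype.ext (P.meet_unique hh hx x.2 (P.infPt_mem hh) (P.infPt hh).2)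

lemma sum_mult (L : Finset Ln) :
    ∑ x : Pt, (L.filter fun h => x ∈ P.pts h).card = L.card * (l * l + 1) := by
  have h0 : ∀ h, (Finset.univ.filter fun x => x ∈ P.pts h) = P.pts h := fun h => by ext; simp
  calc ∑ x : Pt, (L.filter fun h => x ∈ P.pts h).card
      = ∑ h ∈ L, (Finset.univ.filter fun x => x ∈ P.pts h).card := by
        simp only [Finset.card_filter]
        exact Finset.sum_comm
    _ = L.card * (l * l + 1) := by
        simp only [h0, P.card_pts, Finset.sum_const, smul_eq_mul]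

lemma card_multi (s : Bool) (hl : 0 < l) :
    (Finset.univ.filter fun x => P.Multi s x).card = l * l + l + 1 := by
  have h1 := P.sum_mult (P.fam s)
  have h2 : ∀ x, ((P.fam s).filter fun h => x ∈ P.pts h).card =
      1 + (if P.Multi s x then l else 0) := by
    intro x
    by_cases hx : P.Multi s x
    · rw [if_pos hx, hx, Nat.add_comm]
    · rw [if_neg hx]
      exact (P.mult s x).resolve_right hx
  rw [Finset.sum_congr rfl fun x _ => h2 x, Finset.sum_add_distrib, ← Finset.sum_filter,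
    Finset.sum_const, Finset.sum_const, Finset.card_univ, P.card_pt, P.card_fam] at h1
  simp only [smul_eq_mul, mul_one] at h1
  nlinarith [h1, hl]

end Plane

namespace Views

variable (U : Views g)

lemma Agree.symm {o : View g} {w w' : Fin (g ^ 4)} (h : U.Agree o w w') : U.Agree o w' w := by
  unfold Agree at h ⊢
  rcases o with i | j <;> exact Eq.symm h

lemma Agree.trans {o : View g} {w w' w'' : Fin (g ^ 4)} (h : U.Agree o w w')
    (h' : U.Agree o w' w'') : U.Agree o w w'' := by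
  unfold Agree at h h' ⊢
  rcases o with i | j <;> exact Eq.trans h h'

lemma Agree.unique {o o' : View g} {w w' : Fin (g ^ 4)} (hw : w ≠ w') (h : U.Agree o w w')
    (h' : U.Agree o' w w') : o = o' :=
  (U.agree w w' hw).unique h h'

lemma agree_refl (o : View g) (w : Fin (g ^ 4)) : U.Agree o w w := by
  unfold Agree
  rcases o with i | j <;> rfl

end Views

namespace Setup

variable (Z : Setup Pt Ln g l)

lemma InS.off {x : Pt} (hx : Z.InS x) : Z.plane.Off x := hx.1

lemma InS.sig_eq {x : Pt} (hx : Z.InS x) {s : Bool}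
    (h : Z.star (Z.plane.lineOf s x) = Z.star (Z.plane.lineOf (!s) x)) :
    Z.sig (Z.plane.lineOf s x) = Z.sig (Z.plane.lineOf (!s) x) := by
  cases s
  · exact hx.2 h
  · exact (hx.2 h.symm).symm

lemma dirKey_fam {D x : Pt} (hx : Z.plane.Off x) (hD : D ∈ Z.plane.pts Z.plane.inf) {s : Bool}
    {a : Ln} (ha : a ∈ Z.plane.fam s) (hxa : x ∈ Z.plane.pts a) (hDa : D ∈ Z.plane.pts a) :
    Z.dirKey D x = Sum.inl (a, some (Z.views.full none (Z.idx (Z.plane.lineOf (!s) x)))) := by
  have hne : x ≠ D := fun e => hx.1 (e ▸ hD)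
  have hj := Z.plane.joinLine_eq hne hxa hDa
  unfold Setup.dirKey
  cases s
  · rw [hj, if_pos ha, Bool.not_false]
  · have h0 : a ∉ Z.plane.fam false := Finset.disjoint_right.1 Z.plane.disj ha
    rw [hj, if_neg h0, if_pos ha, Bool.not_true]

lemma dirKey_line {D x : Pt} (hx : Z.plane.Off x) (hD : D ∈ Z.plane.pts Z.plane.inf) :
    ∃ u, Z.dirKey D x = Sum.inl (Z.plane.joinLine x D, u) ∧ x ≠ D := by
  have hne : x ≠ D := fun e => hx.1 (e ▸ hD)
  unfold Setup.dirKey
  split_ifs <;> exact ⟨_, rfl, hne⟩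

/-- The class separating the indices agreeing in a view, seen from a line of family `s`. -/
noncomputable def rowCls (hm : nSplit g ≤ alpha g) (s : Bool) {a : Ln}
    (ha : a ∈ Z.plane.fam s) : View g → Cls Z
  | Sum.inl none => Sum.inl (Z.plane.infPt (Z.plane.fam_ne_inf ha))
  | Sum.inl (some i) => Sum.inr (Sum.inl (s, i))
  | Sum.inr (some j) => Sum.inr (Sum.inl (!s, Fin.castLE hm j))
  | Sum.inr none => Sum.inr (Sum.inr ())

/-- The key in that class of a point on the line `a` whose other line has index `w`. -/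
noncomputable def rowKey (hm : nSplit g ≤ alpha g) (s : Bool) (a : Ln) :
    View g → Fin (g ^ 4) → Key Ln g
  | Sum.inl none, w => Sum.inl (a, some (Z.views.full none w))
  | Sum.inl (some i), w => if h : i.val < nSplit g then
      Sum.inr (Sum.inl (Z.views.split (some ⟨i.val, h⟩) (Z.idx a), Z.views.full (some i) w))
    else Sum.inl (a, some (Z.views.full (some i) w))
  | Sum.inr (some j), w => Sum.inr (Sum.inl (Z.views.split (some j) w,
      Z.views.full (some (Fin.castLE hm j)) (Z.idx a)))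
  | Sum.inr none, w => Sum.inr (Sum.inr
      (if s then Z.views.split none w else Z.star a,
        if s then Z.star a else Z.views.split none w,
        if Z.star a = Z.views.split none w then some (Z.sig a) else none))

lemma key_row (hm : nSplit g ≤ alpha g) {s : Bool} {a : Ln} (ha : a ∈ Z.plane.fam s)
    (o : View g) {x : Pt} (hx : Z.InS x) (hxa : x ∈ Z.plane.pts a) :
    Z.key (Z.rowCls hm s ha o) x =
      Z.rowKey hm s a o (Z.idx (Z.plane.lineOf (!s) x)) := by
  have hls : Z.plane.lineOf s x = a := hx.1.lineOf_eq Z.plane ha hxa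
  rcases o with (_ | i) | (_ | j)
  · exact Z.dirKey_fam hx.1 (Z.plane.infPt _).2 ha hxa (Z.plane.infPt_mem _)
  · show Z.slotKey s i x = _
    unfold Setup.slotKey
    rw [hls]
    rfl
  · show Z.markKey x = _
    unfold Setup.markKey rowKey
    cases s
    · simp only [Bool.not_false, hls]
      rfl
    · simp only [Bool.not_true, hls]
      by_cases he : Z.star (Z.plane.lineOf false x) = Z.star a
      · have hsig : Z.sig (Z.plane.lineOf false x) = Z.sig a := by
          have := hx.2 (by rw [hls]; exact he)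
          rwa [hls] at this
        simp only [Setup.star] at he ⊢
        simp [he, hsig]
      · simp only [Setup.star] at he ⊢
        simp [he, Ne.symm he]
  · show Z.slotKey (!s) (Fin.castLE hm j) x = _
    unfold Setup.slotKey
    rw [dif_pos (show (Fin.castLE hm j).val < nSplit g from j.2), Bool.not_not, hls]
    rfl

lemma rowKey_eq_iff (hm : nSplit g ≤ alpha g) (s : Bool) (a : Ln) (o : View g)
    (w w' : Fin (g ^ 4)) :
    Z.rowKey hm s a o w = Z.rowKey hm s a o w' ↔ Z.views.Agree o w w' := by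
  rcases o with (_ | i) | (_ | j)
  · simp [rowKey, Views.Agree]
  · by_cases h : i.val < nSplit g <;> simp [rowKey, Views.Agree, h]
  · constructor
    · intro h
      simp only [rowKey, Sum.inr.injEq, Prod.mk.injEq] at h
      cases s
      · exact h.2.1
      · exact h.1
    · intro h
      simp only [Views.Agree, Sum.elim_inr] at h
      simp only [rowKey, h]
  · simp [rowKey, Views.Agree]

/-- Two points on a family line share a key only through a view in which their indices agree. -/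
lemma share_row (hm : nSplit g ≤ alpha g) {s : Bool} {a : Ln} (ha : a ∈ Z.plane.fam s)
    {x y : Pt} (hx : Z.InS x) (hy : Z.InS y) (hxa : x ∈ Z.plane.pts a)
    (hya : y ∈ Z.plane.pts a) {c : Cls Z} (h : Z.key c x = Z.key c y) (hne : x ≠ y) :
    ∃ o, Z.rowCls hm s ha o = c ∧ Z.views.Agree o (Z.idx (Z.plane.lineOf (!s) x))
      (Z.idx (Z.plane.lineOf (!s) y)) := by
  have key1 : ∀ o, Z.rowCls hm s ha o = c → ∃ o, Z.rowCls hm s ha o = c ∧
      Z.views.Agree o (Z.idx (Z.plane.lineOf (!s) x)) (Z.idx (Z.plane.lineOf (!s) y)) := by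
    intro o ho
    refine ⟨o, ho, (Z.rowKey_eq_iff hm s a o _ _).1 ?_⟩
    rw [← Z.key_row hm ha o hx hxa, ← Z.key_row hm ha o hy hya, ho, h]
  have hls : ∀ z, Z.InS z → z ∈ Z.plane.pts a → Z.plane.lineOf s z = a :=
    fun z hz hza => hz.1.lineOf_eq Z.plane ha hza
  rcases c with D | ⟨s', i⟩ | u
  · by_cases hD : D.1 ∈ Z.plane.pts a
    · exact key1 (Sum.inl none)
        (congrArg Sum.inl (Z.plane.eq_infPt (Z.plane.fam_ne_inf ha) hD).symm)
    · exfalso
      obtain ⟨u, hu, hxD⟩ := Z.dirKey_line hx.1 D.2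
      obtain ⟨v, hv, hyD⟩ := Z.dirKey_line hy.1 D.2
      have h' : Z.dirKey D.1 x = Z.dirKey D.1 y := h
      rw [hu, hv, Sum.inl.injEq, Prod.mk.injEq] at h'
      obtain ⟨hx1, hD1⟩ := Z.plane.joinLine_spec hxD
      obtain ⟨hy1, -⟩ := Z.plane.joinLine_spec hyD
      rw [← h'.1] at hy1
      have := (Z.plane.join x y hne).unique ⟨hx1, hy1⟩ ⟨hxa, hya⟩
      exact hD (this ▸ hD1)
  · by_cases hs : s' = s
    · subst hs
      exact key1 (Sum.inl (some i)) rfl
    · have hs' : s' = !s := by revert hs; cases s <;> cases s' <;> simp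
      subst hs'
      by_cases hi : i.val < nSplit g
      · exact key1 (Sum.inr (some ⟨i.val, hi⟩)) rfl
      · exfalso
        have h' : Z.slotKey (!s) i x = Z.slotKey (!s) i y := h
        unfold Setup.slotKey at h'
        rw [dif_neg hi, dif_neg hi, Sum.inl.injEq, Prod.mk.injEq] at h'
        exact hne (Z.plane.eq_of_lineOf (s := s) ((hls x hx hxa).trans (hls y hy hya).symm) h'.1)
  · exact key1 (Sum.inr none) rfl

/-- Every two points of the construction share a vertex. -/
theorem exists_key_eq (hm : nSplit g ≤ alpha g) {x y : Pt} (hx : Z.InS x) (hy : Z.InS y) :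
    ∃ c : Cls Z, Z.key c x = Z.key c y := by
  by_cases hne : x = y
  · exact ⟨Sum.inr (Sum.inr ()), hne ▸ rfl⟩
  obtain ⟨hxh, hyh⟩ := Z.plane.joinLine_spec hne
  by_cases hfam : ∃ s, Z.plane.joinLine x y ∈ Z.plane.fam s
  · obtain ⟨s, ha⟩ := hfam
    obtain ⟨o, ho⟩ : ∃ o, Z.views.Agree o (Z.idx (Z.plane.lineOf (!s) x))
        (Z.idx (Z.plane.lineOf (!s) y)) := by
      by_cases hw : Z.idx (Z.plane.lineOf (!s) x) = Z.idx (Z.plane.lineOf (!s) y)
      · exact ⟨Sum.inl none, hw ▸ Z.views.agree_refl _ _⟩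
      · exact (Z.views.agree _ _ hw).exists
    refine ⟨Z.rowCls hm s ha o, ?_⟩
    rw [Z.key_row hm ha o hx hxh, Z.key_row hm ha o hy hyh]
    exact (Z.rowKey_eq_iff hm s _ o _ _).2 ho
  · have hinf : Z.plane.joinLine x y ≠ Z.plane.inf := fun e => hx.1.1 (e ▸ hxh)
    set D := Z.plane.infPt hinf with hDdef
    refine ⟨Sum.inl D, ?_⟩
    have hD : D.1 ∈ Z.plane.pts (Z.plane.joinLine x y) := Z.plane.infPt_mem hinf
    have hxD : x ≠ D.1 := fun e => hx.1.1 (e ▸ D.2)
    have hyD : y ≠ D.1 := fun e => hy.1.1 (e ▸ D.2)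
    show Z.dirKey D.1 x = Z.dirKey D.1 y
    unfold Setup.dirKey
    rw [Z.plane.joinLine_eq hxD hxh hD, Z.plane.joinLine_eq hyD hyh hD]
    push Not at hfam
    rw [if_neg (hfam false), if_neg (hfam true), if_neg (hfam false), if_neg (hfam true)]

end Setup

end Vale.Agent.P045.Ryser
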