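import Vale.Agent.P045.Ryser.Pins
import Vale.Agent.P045.Ryser.CoreBasic

/-!
From the pins to an intersecting hypergraph without a small cover.
-/

namespace Vale.Agent.P045.Ryser

open Classical

lemma nSplit_le_alpha {g : ℕ} (hg : 13 ≤ g) : nSplit g ≤ alpha g := by
  unfold nSplit alpha
  have : 13 * g ≤ g ^ 2 := by nlinarith
  omega

lemma Params.g_ge {g l R : ℕ} (h : Params g l R) : 13 ≤ g := by
  have h1 := h.big
  have h2 := h.gLow
  have h3 : R ≤ R ^ 4 := Nat.le_self_pow (by norm_num) R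
  omega

lemma Params.l_ge {g l R : ℕ} (h : Params g l R) : R ≤ l := by
  have := h.lLow
  have h1 : R ≤ g ^ 2 * R := Nat.le_mul_of_pos_left _ (pow_pos h.gPrime.pos 2)
  omega

/-- Parameters exist above any bound. -/
theorem exists_params (N : ℕ) : ∃ g l R, Params g l R ∧ N ≤ l := by
  set R := max N (2 ^ 20) with hR
  have hR0 : R ≠ 0 := by
    have : 2 ^ 20 ≤ R := le_max_right _ _
    omega
  obtain ⟨g, hgp, hg1, hg2⟩ := Nat.exists_prime_lt_and_le_two_mul (R ^ 4) (pow_ne_zero _ hR0)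
  obtain ⟨l, hlp, hl1, hl2⟩ := Nat.exists_prime_lt_and_le_two_mul (g ^ 2 * R)
    (Nat.mul_ne_zero (pow_ne_zero _ hgp.ne_zero) hR0)
  have hp : Params g l R :=
    ⟨le_max_right _ _, hgp, hg1, hg2, hlp, hl1, hl2.trans_eq (by ring)⟩
  exact ⟨g, l, R, hp, le_trans (le_max_left _ _) hp.l_ge⟩

/-- From the four blocks, intersecting hypergraphs with no cover smaller than the rank. -/
theorem ryser_false_of_pins (hA : PlanePin) (hV : ViewsPin) (hB : RandomPin) (hC : CorePin)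
    (N : ℕ) : ∃ r : ℕ, N ≤ r ∧ 2 ≤ r ∧ ∃ (n : ℕ) (part : Fin n → Fin r)
      (edges : Finset (Finset (Fin n))),
      edges.Nonempty ∧
      (∀ e ∈ edges, ∀ i : Fin r, ∃! v, v ∈ e ∧ part v = i) ∧
      (∀ e ∈ edges, ∀ f ∈ edges, ∃ v, v ∈ e ∧ v ∈ f) ∧
      (∀ C : Finset (Fin n), (∀ e ∈ edges, ∃ v ∈ C, v ∈ e) → r ≤ C.card) := by
  obtain ⟨g, l, R, hp, hN⟩ := exists_params N
  have hg := hp.g_ge
  have hl := hp.l_ge
  have hbig := hp.big
  obtain ⟨Pt, Ln, _, _, ⟨P⟩⟩ := hA l hp.lPrime (by omega)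
  obtain ⟨U⟩ := hV g hp.gPrime hg
  obtain ⟨idx, sig, hG⟩ := hB g l R hp Pt Ln P U
  set Z := Setup.mk P U idx sig with hZ
  have hm := nSplit_le_alpha hg
  have hcls : Fintype.card (Cls Z) = l * l + 2 * alpha g + 2 := by
    simp only [Fintype.card_sum, Fintype.card_prod, Fintype.card_bool, Fintype.card_fin,
      Fintype.card_unit, Fintype.card_coe, Z.plane.card_pts]
    omega
  set eC := Fintype.equivFinOfCardEq hcls with heC
  set eV := Fintype.equivFin (Cls Z × Key Ln g) with heV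
  set edge : Pt → Finset (Fin (Fintype.card (Cls Z × Key Ln g))) :=
    fun x => Finset.univ.image fun c => eV (c, Z.key c x) with hedge
  have hll : l ≤ l * l := Nat.le_mul_self l
  refine ⟨l * l + 2 * alpha g + 2, by omega, by omega, _, fun v => eC (eV.symm v).1,
    (Finset.univ.filter fun x => Z.InS x).image edge, ?_, ?_, ?_, ?_⟩
  · obtain ⟨a, ha⟩ : (Z.plane.fam false).Nonempty := by
      rw [← Finset.card_pos, Z.plane.card_fam]; omega
    obtain ⟨x, hx, -⟩ := hG.rich false a ha ⟨0, pow_pos (by omega) 4⟩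
    exact ⟨edge x, Finset.mem_image_of_mem _ (Finset.mem_filter.2 ⟨Finset.mem_univ _, hx⟩)⟩
  · intro e he i
    obtain ⟨x, -, rfl⟩ := Finset.mem_image.1 he
    refine ⟨eV (eC.symm i, Z.key (eC.symm i) x),
      ⟨Finset.mem_image.2 ⟨_, Finset.mem_univ _, rfl⟩, by simp⟩, ?_⟩
    rintro v ⟨hv, hi⟩
    obtain ⟨c, -, rfl⟩ := Finset.mem_image.1 hv
    simp only [Equiv.symm_apply_apply] at hi
    subst hi
    simp
  · intro e he f hf
    obtain ⟨x, hx, rfl⟩ := Finset.mem_image.1 he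
    obtain ⟨y, hy, rfl⟩ := Finset.mem_image.1 hf
    obtain ⟨c, hc⟩ := Z.exists_key_eq hm (Finset.mem_filter.1 hx).2 (Finset.mem_filter.1 hy).2
    exact ⟨eV (c, Z.key c x), Finset.mem_image.2 ⟨c, Finset.mem_univ _, rfl⟩,
      Finset.mem_image.2 ⟨c, Finset.mem_univ _, by rw [hc]⟩⟩
  · intro C hCv
    have hcov : Z.Covers (C.image eV.symm) := by
      intro x hx
      obtain ⟨v, hvC, hv⟩ := hCv (edge x)
        (Finset.mem_image_of_mem _ (Finset.mem_filter.2 ⟨Finset.mem_univ _, hx⟩))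
      obtain ⟨c, -, rfl⟩ := Finset.mem_image.1 hv
      exact ⟨c, Finset.mem_image.2 ⟨_, hvC, eV.symm_apply_apply _⟩⟩
    exact (hC g l R hp Pt Ln Z hG _ hcov).trans Finset.card_image_le

end Vale.Agent.P045.Ryser
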