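import Vale.Agent.P045.Ryser.Defs

/-!
The interfaces between the blocks of the disproof.
-/

namespace Vale.Agent.P045.Ryser

open Classical

/-- Block A: planes with two families exist for every prime. -/
def PlanePin : Prop :=
  ∀ l : ℕ, l.Prime → 5 ≤ l → ∃ (Pt Ln : Type) (_ : Fintype Pt) (_ : Fintype Ln),
    Nonempty (Plane Pt Ln l)

/-- Block B1: view systems exist for every prime. -/
def ViewsPin : Prop := ∀ g : ℕ, g.Prime → 13 ≤ g → Nonempty (Views g)

/-- Block B2: a good choice of indices and bits exists. -/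
def RandomPin : Prop :=
  ∀ (g l R : ℕ), Params g l R → ∀ (Pt Ln : Type) [Fintype Pt] [Fintype Ln]
    (P : Plane Pt Ln l) (U : Views g), ∃ (idx : Ln → Fin (g ^ 4)) (sig : Ln → Bool),
      (Setup.mk P U idx sig).Good R

/-- Block C: no cover by fewer vertices than classes. -/
def CorePin : Prop :=
  ∀ (g l R : ℕ), Params g l R → ∀ (Pt Ln : Type) [Fintype Pt] [Fintype Ln]
    (Z : Setup Pt Ln g l), Z.Good R → ∀ C : Finset (Cls Z × Key Ln g), Z.Covers C →
      l * l + 2 * alpha g + 2 ≤ C.card

end Vale.Agent.P045.Ryser
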