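import Vale.Agent.P045.Ryser.CoreSingle
import Vale.Agent.P045.Ryser.CorePencil
import Vale.Agent.P045.Ryser.CoreCentre
import Vale.Agent.P045.Ryser.Pins
import Vale.Agent.P045.Ryser.Final

/-!
The core block: no cover by fewer vertices than parts.
-/

namespace Vale.Agent.P045.Ryser

open Classical

/-- Block C: no cover by fewer vertices than classes. -/
theorem corePin : CorePin := by
  intro g l R hp Pt Ln _ _ Z hG C hC
  by_contra hlt
  obtain ⟨O, F, hF, hcov⟩ := Z.exists_centre hp hG C hC (by omega)
  have hg := hp.g_ge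
  have hb : ∀ s, ((Z.plane.fam s).filter fun h => O ∈ Z.plane.pts h).card ≤ l + 1 := fun s => by
    rcases Z.plane.mult s O with e | e <;> omega
  have he : (if O ∈ Z.plane.pts Z.plane.inf then 1 else 0) ≤ 1 := by split_ifs <;> omega
  by_cases hmu : ∃ s, Z.plane.Multi s O
  · obtain ⟨s, hs⟩ := hmu
    refine Z.pencil_false hp hG hs F (fun a ha hOa x hx hxa => hcov s a ha hOa x hx hxa ?_) ?_
    · exact fun e => Plane.Off.not_multi Z.plane hx.1 s (e ▸ hs)
    · have := hb false
      have := hb true
      have hal : alpha g ≤ g ^ 2 := Nat.sub_le _ _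
      have : 1 ≤ g ^ 2 := Nat.one_le_pow _ _ (by omega)
      omega
  · push Not at hmu
    have h1 : ∀ s, ((Z.plane.fam s).filter fun h => O ∈ Z.plane.pts h).card = 1 := fun s =>
      (Z.plane.mult s O).resolve_right (hmu s)
    rw [h1, h1] at hF
    have := Setup.budget_single (O := O) hG hg hmu hcov (nSplit_le_alpha hg)
    omega

end Vale.Agent.P045.Ryser
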