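import Vale.Agent.P045.Ryser.CoreBasic

/-!
The pencil case: few vertices cannot cover the two family lines through a point that is on one line
of each family.
-/

namespace Vale.Agent.P045.Ryser

open Classical

variable {Pt Ln : Type} [Fintype Pt] [Fintype Ln] {g l R : ℕ}

namespace Setup

variable (Z : Setup Pt Ln g l)

/-- The vertices in `F` cover the points of the family lines through `O`, apart from `O`. -/
def CoversAt (O : Pt) (F : Finset (Cls Z × Key Ln g)) : Prop :=
  ∀ s, ∀ a ∈ Z.plane.fam s, O ∈ Z.plane.pts a → ∀ x, Z.InS x → x ∈ Z.plane.pts a → x ≠ O →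
    ∃ c : Cls Z, (c, Z.key c x) ∈ F

variable (hm : nSplit g ≤ alpha g) (O : Pt)

/-- The line of family `s` through the centre. -/
noncomputable def cLine (s : Bool) : Ln := Z.plane.lineOf s O

/-- The index of the centre on its line of family `s`. -/
noncomputable def cIdx (s : Bool) : Fin (g ^ 4) := Z.idx (Z.plane.lineOf (!s) O)

/-- The vertex of the centre belonging to a view on its line of family `s`. -/
noncomputable def cPart (s : Bool) (o : View g) : Cls Z × Key Ln g :=
  (Z.rowCls hm s (Z.plane.lineOf_mem s O) o, Z.rowKey hm s (Z.cLine O s) o (Z.cIdx O s))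

/-- The vertices that belong to the centre. -/
noncomputable def designated : Finset (Cls Z × Key Ln g) :=
  (Finset.univ.image fun p : Bool × Option (Fin (alpha g)) => Z.cPart hm O p.1 (Sum.inl p.2)) ∪
    Finset.univ.image fun s : Bool => Z.cPart hm O s (Sum.inr none)

lemma cPart_inr (s : Bool) (j : Fin (nSplit g)) :
    Z.cPart hm O s (Sum.inr (some j)) =
      Z.cPart hm O (!s) (Sum.inl (some (Fin.castLE hm j))) := by
  apply Prod.ext
  · rfl
  · simp only [cPart, rowKey, cIdx, cLine, Bool.not_not]
    rw [dif_pos (show (Fin.castLE hm j).val < nSplit g from j.2)]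
    rfl

lemma cPart_mem (s : Bool) (o : View g) : Z.cPart hm O s o ∈ Z.designated hm O := by
  unfold designated
  rw [Finset.mem_union, Finset.mem_image, Finset.mem_image]
  rcases o with i | (_ | j)
  · exact Or.inl ⟨(s, i), Finset.mem_univ _, rfl⟩
  · exact Or.inr ⟨s, Finset.mem_univ _, rfl⟩
  · exact Or.inl ⟨(!s, some (Fin.castLE hm j)), Finset.mem_univ _, (Z.cPart_inr hm O s j).symm⟩

lemma eq_centre {s : Bool} {x : Pt} (h1 : x ∈ Z.plane.pts (Z.cLine O s))
    (h2 : x ∈ Z.plane.pts (Z.cLine O (!s))) : x = O :=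
  Z.plane.meet_unique (Z.plane.fam_ne_not (Z.plane.lineOf_mem s O) (Z.plane.lineOf_mem (!s) O))
    h1 h2 (Z.plane.mem_lineOf s O) (Z.plane.mem_lineOf (!s) O)

lemma agree_of_eq_cPart {s : Bool} {x : Pt} (hx : Z.InS x)
    (hxa : x ∈ Z.plane.pts (Z.cLine O s)) {c : Cls Z} {o : View g}
    (h : (c, Z.key c x) = Z.cPart hm O s o) :
    Z.views.Agree o (Z.idx (Z.plane.lineOf (!s) x)) (Z.cIdx O s) := by
  obtain ⟨h1, h2⟩ := Prod.mk.injEq .. ▸ h
  rw [h1, Z.key_row hm (Z.plane.lineOf_mem s O) o hx hxa] at h2
  exact (Z.rowKey_eq_iff hm s _ o _ _).1 h2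

lemma designated_cases {s : Bool} {x : Pt} (hx : Z.InS x)
    (hxa : x ∈ Z.plane.pts (Z.cLine O s)) (hxO : x ≠ O) {c : Cls Z}
    (h : (c, Z.key c x) ∈ Z.designated hm O) :
    ∃ o, (c, Z.key c x) = Z.cPart hm O s o ∧
      Z.views.Agree o (Z.idx (Z.plane.lineOf (!s) x)) (Z.cIdx O s) := by
  obtain ⟨s', o, ho⟩ : ∃ s' o, Z.cPart hm O s' o = (c, Z.key c x) := by
    unfold designated at h
    rw [Finset.mem_union, Finset.mem_image, Finset.mem_image] at h
    rcases h with ⟨p, -, hp⟩ | ⟨s', -, hp⟩
    · exact ⟨_, _, hp⟩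
    · exact ⟨_, _, hp⟩
  have own : ∀ o', (c, Z.key c x) = Z.cPart hm O s o' →
      ∃ o, (c, Z.key c x) = Z.cPart hm O s o ∧
        Z.views.Agree o (Z.idx (Z.plane.lineOf (!s) x)) (Z.cIdx O s) :=
    fun o' h' => ⟨o', h', Z.agree_of_eq_cPart hm O hx hxa h'⟩
  by_cases hs : s' = s
  · subst hs
    exact own o ho.symm
  have hs' : s' = !s := by revert hs; cases s <;> cases s' <;> simp
  subst hs'
  have hout : x ∉ Z.plane.pts (Z.cLine O (!s)) := fun h' => hxO (Z.eq_centre O hxa h')
  obtain ⟨h1, h2⟩ := Prod.mk.injEq .. ▸ ho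
  rcases o with (_ | i) | (_ | j)
  · exfalso
    subst h1
    obtain ⟨u, hu, hxD⟩ := Z.dirKey_line hx.1
      (Z.plane.infPt (Z.plane.fam_ne_inf (Z.plane.lineOf_mem (!s) O))).2
    have h2' : (Sum.inl (Z.cLine O (!s), some (Z.views.full none (Z.cIdx O (!s)))) : Key Ln g) =
        Z.dirKey _ x := h2
    rw [hu, Sum.inl.injEq, Prod.mk.injEq] at h2'
    exact hout (h2'.1 ▸ (Z.plane.joinLine_spec hxD).1)
  · by_cases hi : i.val < nSplit g
    · refine own (Sum.inr (some ⟨i.val, hi⟩)) ?_
      rw [Z.cPart_inr hm O s]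
      exact ho.symm
    · exfalso
      subst h1
      have h2' : Z.rowKey hm (!s) (Z.cLine O (!s)) (Sum.inl (some i)) (Z.cIdx O (!s)) =
          Z.slotKey (!s) i x := h2
      simp only [rowKey, Setup.slotKey, dif_neg hi, Sum.inl.injEq, Prod.mk.injEq] at h2'
      exact hout (h2'.1 ▸ Z.plane.mem_lineOf (!s) x)
  · refine ⟨Sum.inr none, ?_⟩
    subst h1
    have hk := Z.key_row hm (Z.plane.lineOf_mem s O) (Sum.inr none) hx hxa
    have hcls : Z.rowCls hm s (Z.plane.lineOf_mem s O) (Sum.inr none) =
        Z.rowCls hm (!s) (Z.plane.lineOf_mem (!s) O) (Sum.inr none) := rfl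
    rw [hcls] at hk
    have hag : Z.views.Agree (Sum.inr none) (Z.idx (Z.plane.lineOf (!s) x)) (Z.cIdx O s) := by
      rw [hk] at h2
      simp only [rowKey, Sum.inr.injEq, Prod.mk.injEq] at h2
      show Z.views.split none _ = Z.views.split none _
      cases s
      · exact h2.2.1.symm
      · exact h2.1.symm
    refine ⟨Prod.ext rfl ?_, hag⟩
    simp only [cPart]
    erw [hk]
    exact (Z.rowKey_eq_iff hm s _ _ _ _).2 hag
  · refine own (Sum.inl (some (Fin.castLE hm j))) ?_
    rw [← ho, Z.cPart_inr hm O (!s) j, Bool.not_not]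

variable {Z} (hZ : Z.Good R)

/-- A chosen point of the construction on the line `cLine s`, with other index `w`. -/
noncomputable def pick (s : Bool) (w : Fin (g ^ 4)) : Pt :=
  (hZ.rich s (Z.cLine O s) (Z.plane.lineOf_mem s O) w).choose

lemma pick_spec (s : Bool) (w : Fin (g ^ 4)) : Z.InS (pick O hZ s w) ∧
    pick O hZ s w ∈ Z.plane.pts (Z.cLine O s) ∧
      Z.idx (Z.plane.lineOf (!s) (pick O hZ s w)) = w :=
  (hZ.rich s (Z.cLine O s) (Z.plane.lineOf_mem s O) w).choose_spec

lemma pick_ne {s : Bool} {w : Fin (g ^ 4)} (hw : w ≠ Z.cIdx O s) : pick O hZ s w ≠ O := by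
  intro e
  have := (pick_spec O hZ s w).2.2
  rw [e] at this
  exact hw this.symm

/-- The indices joined to the centre's index by one of the views in `T`. -/
noncomputable def cells (Z : Setup Pt Ln g l) (s : Bool) (T : Finset (View g)) :
    Finset (Fin (g ^ 4)) :=
  Finset.univ.filter fun w => w ≠ Z.cIdx O s ∧ ∃ o ∈ T, Z.views.Agree o w (Z.cIdx O s)

/-- The number of chosen points with index in `cells` inside a vertex. -/
noncomputable def served (s : Bool) (T : Finset (View g)) (p : Cls Z × Key Ln g) : ℕ :=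
  ((cells O Z s T).filter fun w => Z.key p.1 (pick O hZ s w) = p.2).card

lemma card_cells_le {F : Finset (Cls Z × Key Ln g)} (hF : Z.CoversAt O F) (s : Bool)
    (T : Finset (View g)) (hT : ∀ o ∈ T, Z.cPart hm O s o ∉ F) :
    (cells O Z s T).card ≤ ∑ p ∈ F \ Z.designated hm O, served O hZ s T p := by
  refine le_trans (Finset.card_le_card ?_) Finset.card_biUnion_le
  intro w hw
  obtain ⟨hne, o, hoT, hag⟩ := (Finset.mem_filter.1 hw).2
  obtain ⟨hS, hon, hidx⟩ := pick_spec O hZ s w
  have hxO := pick_ne O hZ hne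
  obtain ⟨c, hc⟩ := hF s _ (Z.plane.lineOf_mem s O) (Z.plane.mem_lineOf s O) _ hS hon hxO
  rw [Finset.mem_biUnion]
  refine ⟨(c, Z.key c (pick O hZ s w)), Finset.mem_sdiff.2 ⟨hc, fun hd => ?_⟩,
    Finset.mem_filter.2 ⟨hw, rfl⟩⟩
  obtain ⟨o', ho', hag'⟩ := Z.designated_cases hm O hS hon hxO hd
  rw [hidx] at hag'
  have := Views.Agree.unique Z.views hne hag hag'
  subst this
  exact hT o hoT (ho' ▸ hc)

lemma served_le (s : Bool) (T : Finset (View g)) {p : Cls Z × Key Ln g}
    (hp : p ∉ Z.designated hm O) : served O hZ s T p ≤ T.card := by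
  unfold served
  set Q := (cells O Z s T).filter fun w => Z.key p.1 (pick O hZ s w) = p.2 with hQ
  have hsub : Q ⊆ T.biUnion fun o => Q.filter fun w => Z.views.Agree o w (Z.cIdx O s) := by
    intro w hw
    obtain ⟨-, o, ho, hag⟩ := (Finset.mem_filter.1 (Finset.mem_filter.1 hw).1).2
    exact Finset.mem_biUnion.2 ⟨o, ho, Finset.mem_filter.2 ⟨hw, hag⟩⟩
  refine le_trans (Finset.card_le_card hsub) (le_trans Finset.card_biUnion_le ?_)
  refine le_trans (Finset.sum_le_card_nsmul _ _ 1 fun o _ => ?_) (by simp)
  rw [Finset.card_le_one]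
  intro w hw w' hw'
  obtain ⟨hwQ, hag⟩ := Finset.mem_filter.1 hw
  obtain ⟨hwQ', hag'⟩ := Finset.mem_filter.1 hw'
  by_contra hne
  obtain ⟨hS, hon, hidx⟩ := pick_spec O hZ s w
  obtain ⟨hS', hon', hidx'⟩ := pick_spec O hZ s w'
  have hk := (Finset.mem_filter.1 hwQ).2
  have hk' := (Finset.mem_filter.1 hwQ').2
  have hxy : pick O hZ s w ≠ pick O hZ s w' := fun e => hne (by rw [← hidx, ← hidx', e])
  obtain ⟨o', ho', hoa⟩ := Z.share_row hm (Z.plane.lineOf_mem s O) hS hS' hon hon'
    (c := p.1) (hk.trans hk'.symm) hxy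
  rw [hidx, hidx'] at hoa
  have := Views.Agree.unique Z.views hne hoa (hag.trans Z.views (hag'.symm Z.views))
  subst this
  apply hp
  have hp2 : p = Z.cPart hm O s o' := by
    refine Prod.ext ho'.symm ?_
    rw [← hk, ← ho', Z.key_row hm (Z.plane.lineOf_mem s O) o' hS hon, hidx]
    exact (Z.rowKey_eq_iff hm s _ o' _ _).2 hag
  exact hp2 ▸ Z.cPart_mem hm O s o'

lemma served_excl (s : Bool) (T T' : Finset (View g)) {p : Cls Z × Key Ln g}
    (hp : p ∉ Z.designated hm O) (h2 : 2 ≤ served O hZ s T p) :
    served O hZ (!s) T' p = 0 := by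
  rw [served, Finset.card_eq_zero, Finset.eq_empty_iff_forall_notMem]
  intro v hv
  obtain ⟨w, hw, w', hw', hne⟩ := Finset.one_lt_card.1 (show 1 < ((cells O Z s T).filter
    fun w => Z.key p.1 (pick O hZ s w) = p.2).card from h2)
  obtain ⟨hS, hon, hidx⟩ := pick_spec O hZ s w
  obtain ⟨hS', hon', hidx'⟩ := pick_spec O hZ s w'
  obtain ⟨hyS, hyon, -⟩ := pick_spec O hZ (!s) v
  have hk := (Finset.mem_filter.1 hw).2
  have hk' := (Finset.mem_filter.1 hw').2
  obtain ⟨hv1, hky⟩ := Finset.mem_filter.1 hv
  have hyO := pick_ne O hZ (Finset.mem_filter.1 hv1).2.1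
  set y := pick O hZ (!s) v
  have hyout : y ∉ Z.plane.pts (Z.cLine O s) := fun h' => hyO (Z.eq_centre O h' hyon)
  have hly : Z.plane.lineOf (!s) y = Z.cLine O (!s) :=
    hyS.1.lineOf_eq Z.plane (Z.plane.lineOf_mem _ O) hyon
  have hxy : pick O hZ s w ≠ pick O hZ s w' := fun e => hne (by rw [← hidx, ← hidx', e])
  obtain ⟨o, ho, -⟩ := Z.share_row hm (Z.plane.lineOf_mem s O) hS hS' hon hon'
    (c := p.1) (hk.trans hk'.symm) hxy
  have hp2 : p.2 = Z.rowKey hm s (Z.cLine O s) o w := by
    rw [← hk, ← ho, Z.key_row hm (Z.plane.lineOf_mem s O) o hS hon, hidx]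
    rfl
  rw [← ho, hp2] at hky
  suffices hag : Z.views.Agree o w (Z.cIdx O s) by
    apply hp
    have : p = Z.cPart hm O s o :=
      Prod.ext ho.symm (hp2.trans ((Z.rowKey_eq_iff hm s _ o _ _).2 hag))
    exact this ▸ Z.cPart_mem hm O s o
  rcases o with (_ | i) | (_ | j)
  · exfalso
    obtain ⟨u, hu, hyD⟩ := Z.dirKey_line hyS.1
      (Z.plane.infPt (Z.plane.fam_ne_inf (Z.plane.lineOf_mem s O))).2
    have h' : Z.dirKey (Z.plane.infPt (Z.plane.fam_ne_inf (Z.plane.lineOf_mem s O))).1 y =
        (Sum.inl (Z.cLine O s, some (Z.views.full none w)) : Key Ln g) := hky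
    rw [hu, Sum.inl.injEq, Prod.mk.injEq] at h'
    exact hyout (h'.1 ▸ (Z.plane.joinLine_spec hyD).1)
  · have h' : Z.slotKey s i y = Z.rowKey hm s (Z.cLine O s) (Sum.inl (some i)) w := hky
    by_cases hi : i.val < nSplit g
    · simp only [Setup.slotKey, rowKey, dif_pos hi, Sum.inr.injEq, Sum.inl.injEq,
        Prod.mk.injEq] at h'
      rw [hly] at h'
      exact h'.2.symm
    · exfalso
      simp only [Setup.slotKey, rowKey, dif_neg hi, Sum.inl.injEq, Prod.mk.injEq] at h'
      exact hyout (h'.1 ▸ Z.plane.mem_lineOf s y)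
  · have h' : Z.markKey y = Z.rowKey hm s (Z.cLine O s) (Sum.inr none) w := hky
    simp only [Setup.markKey, rowKey, Sum.inr.injEq, Prod.mk.injEq] at h'
    show Z.views.split none w = Z.views.split none _
    cases s
    · have := h'.2.1
      simp only [Bool.not_false] at hly
      rw [hly] at this
      exact this.symm
    · have := h'.1
      simp only [Bool.not_true] at hly
      rw [hly] at this
      exact this.symm
  · have h' : Z.slotKey (!s) (Fin.castLE hm j) y =
        Z.rowKey hm s (Z.cLine O s) (Sum.inr (some j)) w := hky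
    simp only [Setup.slotKey, rowKey,
      dif_pos (show (Fin.castLE hm j).val < nSplit g from j.2), Sum.inr.injEq, Sum.inl.injEq,
      Prod.mk.injEq, hly] at h'
    exact h'.1.symm

lemma card_cells (s : Bool) (T : Finset (View g)) :
    (cells O Z s T).card = ∑ o ∈ T,
      ((Finset.univ.filter fun w => Z.views.Agree o w (Z.cIdx O s)).erase (Z.cIdx O s)).card := by
  rw [← Finset.card_biUnion]
  · congr 1
    ext w
    simp only [cells, Finset.mem_filter, Finset.mem_univ, true_and, Finset.mem_biUnion,
      Finset.mem_erase]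
    constructor
    · rintro ⟨hne, o, ho, hag⟩
      exact ⟨o, ho, hne, hag⟩
    · rintro ⟨o, ho, hne, hag⟩
      exact ⟨hne, o, ho, hag⟩
  · intro o _ o' _ hoo
    simp only [Function.onFun, Finset.disjoint_left, Finset.mem_erase, Finset.mem_filter,
      Finset.mem_univ, true_and]
    rintro w ⟨hne, hag⟩ ⟨-, hag'⟩
    exact hoo (Views.Agree.unique Z.views hne hag hag')

lemma card_line_full (s : Bool) (i : Option (Fin (alpha g))) :
    ((Finset.univ.filter fun w => Z.views.Agree (Sum.inl i) w (Z.cIdx O s)).erase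
      (Z.cIdx O s)).card = g ^ 2 - 1 := by
  rw [Finset.card_erase_of_mem (by simp [Z.views.agree_refl])]
  congr 1
  refine Eq.trans (congrArg Finset.card (Finset.filter_congr fun w _ => ?_))
    (Z.views.card_full i (Z.views.full i (Z.cIdx O s)))
  exact Iff.rfl

lemma card_line_mark (s : Bool) :
    ((Finset.univ.filter fun w => Z.views.Agree (Sum.inr none) w (Z.cIdx O s)).erase
      (Z.cIdx O s)).card = g - 1 := by
  rw [Finset.card_erase_of_mem (by simp [Z.views.agree_refl])]
  congr 1
  refine Eq.trans (congrArg Finset.card (Finset.filter_congr fun w _ => ?_))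
    (Z.views.card_split none (Z.views.split none (Z.cIdx O s)))
  exact Iff.rfl

/-- The full views whose designated vertex on the side `s` is not in `F`. -/
noncomputable def missing (Z : Setup Pt Ln g l) (hm : nSplit g ≤ alpha g) (O : Pt)
    (F : Finset (Cls Z × Key Ln g)) (s : Bool) : Finset (View g) :=
  (Finset.univ.filter fun i : Option (Fin (alpha g)) => Z.cPart hm O s (Sum.inl i) ∉ F).map
    ⟨Sum.inl, Sum.inl_injective⟩

lemma missing_notMem {F : Finset (Cls Z × Key Ln g)} {s : Bool} {o : View g}
    (ho : o ∈ missing Z hm O F s) : Z.cPart hm O s o ∉ F := by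
  obtain ⟨i, hi, rfl⟩ := Finset.mem_map.1 ho
  exact (Finset.mem_filter.1 hi).2

lemma card_missing_le (F : Finset (Cls Z × Key Ln g)) (s : Bool) :
    (missing Z hm O F s).card ≤ alpha g + 1 := by
  rw [missing, Finset.card_map]
  exact (Finset.card_le_univ _).trans (by simp)

lemma card_cells_missing (F : Finset (Cls Z × Key Ln g)) (s : Bool) :
    (cells O Z s (missing Z hm O F s)).card = (missing Z hm O F s).card * (g ^ 2 - 1) := by
  rw [card_cells O s, Finset.sum_const_nat (m := g ^ 2 - 1)]
  intro o ho
  obtain ⟨i, -, rfl⟩ := Finset.mem_map.1 ho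
  exact card_line_full O s i

lemma card_designated_sdiff (F : Finset (Cls Z × Key Ln g)) :
    (Z.designated hm O \ F).card ≤ (missing Z hm O F false).card + (missing Z hm O F true).card +
      ((Finset.univ.image fun s : Bool => Z.cPart hm O s (Sum.inr none)) \ F).card := by
  have hsub : Z.designated hm O \ F ⊆
      (missing Z hm O F false).image (fun o => Z.cPart hm O false o) ∪
        (missing Z hm O F true).image (fun o => Z.cPart hm O true o) ∪
          ((Finset.univ.image fun s : Bool => Z.cPart hm O s (Sum.inr none)) \ F) := by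
    intro p hp
    obtain ⟨hpD, hpF⟩ := Finset.mem_sdiff.1 hp
    rcases Finset.mem_union.1 hpD with h | h
    · obtain ⟨⟨s, i⟩, -, rfl⟩ := Finset.mem_image.1 h
      have hin : (Sum.inl i : View g) ∈ missing Z hm O F s :=
        Finset.mem_map.2 ⟨i, Finset.mem_filter.2 ⟨Finset.mem_univ _, hpF⟩, rfl⟩
      cases s
      · exact Finset.mem_union_left _ (Finset.mem_union_left _
          (Finset.mem_image.2 ⟨_, hin, rfl⟩))
      · exact Finset.mem_union_left _ (Finset.mem_union_right _
          (Finset.mem_image.2 ⟨_, hin, rfl⟩))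
    · exact Finset.mem_union_right _ (Finset.mem_sdiff.2 ⟨h, hpF⟩)
  refine (Finset.card_le_card hsub).trans ((Finset.card_union_le _ _).trans ?_)
  refine Nat.add_le_add_right ((Finset.card_union_le _ _).trans ?_) _
  exact Nat.add_le_add Finset.card_image_le Finset.card_image_le

include hZ in
lemma card_marked (hO : ∀ s, ¬Z.plane.Multi s O) :
    1 + (if O ∈ Z.plane.pts Z.plane.inf then 1 else 0) ≤
      (Finset.univ.image fun s : Bool => Z.cPart hm O s (Sum.inr none)).card := by
  by_cases hi : O ∈ Z.plane.pts Z.plane.inf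
  · rw [if_pos hi]
    obtain ⟨hst, hsg⟩ := hZ.paired O hi (hO false) (hO true)
    refine Finset.one_lt_card.2 ⟨_, Finset.mem_image.2 ⟨false, Finset.mem_univ _, rfl⟩,
      _, Finset.mem_image.2 ⟨true, Finset.mem_univ _, rfl⟩, fun h => hsg ?_⟩
    have h2 := congrArg Prod.snd h
    simp only [Setup.star] at hst
    simp [cPart, rowKey, cLine, cIdx, Setup.star, hst] at h2
    exact h2
  · rw [if_neg hi]
    exact Finset.card_pos.2 (Finset.univ_nonempty.image _)

include hZ in
lemma card_designated (hO : ∀ s, ¬Z.plane.Multi s O) :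
    2 * alpha g + 3 + (if O ∈ Z.plane.pts Z.plane.inf then 1 else 0) ≤
      (Z.designated hm O).card := by
  have hne : Z.cLine O false ≠ Z.cLine O true :=
    Z.plane.fam_ne_not (Z.plane.lineOf_mem false O) (Z.plane.lineOf_mem (!false) O)
  have hinj : Function.Injective
      fun p : Bool × Option (Fin (alpha g)) => Z.cPart hm O p.1 (Sum.inl p.2) := by
    rintro ⟨s, i⟩ ⟨s', i'⟩ h
    have h1 := congrArg Prod.fst h
    have h2 := congrArg Prod.snd h
    rcases i with _ | i <;> rcases i' with _ | i'
    · simp only [cPart, rowKey, Sum.inl.injEq, Prod.mk.injEq] at h2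
      cases s <;> cases s'
      · rfl
      · exact absurd h2.1 hne
      · exact absurd h2.1.symm hne
      · rfl
    · simp [cPart, rowCls] at h1
    · simp [cPart, rowCls] at h1
    · simp only [cPart, rowCls, Sum.inr.injEq, Sum.inl.injEq, Prod.mk.injEq] at h1
      rw [h1.1, h1.2]
  have := card_marked hm O hZ hO
  have hdisj : Disjoint
      (Finset.univ.image fun p : Bool × Option (Fin (alpha g)) =>
        Z.cPart hm O p.1 (Sum.inl p.2))
      (Finset.univ.image fun s : Bool => Z.cPart hm O s (Sum.inr none)) := by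
    rw [Finset.disjoint_left]
    rintro p hp hp'
    obtain ⟨⟨s, i⟩, -, rfl⟩ := Finset.mem_image.1 hp
    obtain ⟨s', -, h⟩ := Finset.mem_image.1 hp'
    have h1 := congrArg Prod.fst h
    rcases i with _ | i <;> simp [cPart, rowCls] at h1
  rw [designated, Finset.card_union_of_disjoint hdisj, Finset.card_image_of_injective _ hinj,
    Finset.card_univ, Fintype.card_prod, Fintype.card_bool, Fintype.card_option,
    Fintype.card_fin]
  omega

/-- The vertices serving two or more cells on the side `s`. -/
noncomputable def heavy (F : Finset (Cls Z × Key Ln g)) (s : Bool) :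
    Finset (Cls Z × Key Ln g) :=
  (F \ Z.designated hm O).filter fun p => 2 ≤ served O hZ s (missing Z hm O F s) p

/-- The other vertices outside the designated ones. -/
noncomputable def light (F : Finset (Cls Z × Key Ln g)) : Finset (Cls Z × Key Ln g) :=
  (F \ Z.designated hm O).filter fun p => ∀ s, served O hZ s (missing Z hm O F s) p < 2

lemma count_side {F : Finset (Cls Z × Key Ln g)} (hF : Z.CoversAt O F) (s : Bool) :
    (missing Z hm O F s).card * (g ^ 2 - 1) ≤
      (missing Z hm O F s).card * (heavy hm O hZ F s).card + (light hm O hZ F).card := by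
  rw [← card_cells_missing hm O F s]
  refine (card_cells_le hm O hZ hF s _ fun o ho => missing_notMem hm O ho).trans ?_
  calc ∑ p ∈ F \ Z.designated hm O, served O hZ s (missing Z hm O F s) p
      ≤ ∑ p ∈ F \ Z.designated hm O,
        ((if 2 ≤ served O hZ s (missing Z hm O F s) p then (missing Z hm O F s).card else 0) +
          (if ∀ s, served O hZ s (missing Z hm O F s) p < 2 then 1 else 0)) := by
        refine Finset.sum_le_sum fun p hp => ?_
        have hpD := (Finset.mem_sdiff.1 hp).2
        have h1 := served_le hm O hZ s (missing Z hm O F s) hpD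
        by_cases h2 : 2 ≤ served O hZ s (missing Z hm O F s) p
        · rw [if_pos h2]; omega
        · rw [if_neg h2]
          by_cases h3 : 2 ≤ served O hZ (!s) (missing Z hm O F (!s)) p
          · have := served_excl hm O hZ (!s) _ (missing Z hm O F s) hpD h3
            rw [Bool.not_not] at this
            omega
          · have h4 : ∀ t, served O hZ t (missing Z hm O F t) p < 2 := by
              intro t
              by_cases e : t = s
              · subst e; omega
              · have : t = !s := by revert e; cases s <;> cases t <;> simp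
                subst this; omega
            rw [if_pos h4]
            omega
    _ = (missing Z hm O F s).card * (heavy hm O hZ F s).card + (light hm O hZ F).card := by
        rw [Finset.sum_add_distrib, ← Finset.sum_filter, ← Finset.sum_filter,
          Finset.sum_const, Finset.sum_const, smul_eq_mul, smul_eq_mul, mul_one, mul_comm]
        rfl

lemma count_all (F : Finset (Cls Z × Key Ln g)) :
    (heavy hm O hZ F false).card + (heavy hm O hZ F true).card + (light hm O hZ F).card ≤
      (F \ Z.designated hm O).card := by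
  rw [← Finset.card_union_of_disjoint, ← Finset.card_union_of_disjoint]
  · refine Finset.card_le_card fun p hp => ?_
    simp only [Finset.mem_union, heavy, light, Finset.mem_filter] at hp
    tauto
  · rw [Finset.disjoint_left]
    intro p hp hp'
    simp only [Finset.mem_union, heavy, light, Finset.mem_filter] at hp hp'
    have := hp'.2
    rcases hp with h | h
    · have := this false; omega
    · have := this true; omega
  · rw [Finset.disjoint_left]
    intro p hp hp'
    simp only [heavy, Finset.mem_filter] at hp hp'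
    have := served_excl hm O hZ false _ (missing Z hm O F true) (p := p)
      (Finset.mem_sdiff.1 hp.1).2 hp.2
    simp only [Bool.not_false] at this
    omega

omit [Fintype Pt] [Fintype Ln] in
lemma side_arith {t0 t1 u L A B G X t : ℕ} (h0 : t0 ≤ t + 1) (h1 : t1 ≤ t + 1)
    (hpos : 0 < t0 ∨ 0 < t1) (hu : u ≤ 2) (hL : t + 4 ≤ L) (hL1 : 2 * t + 4 ≤ 2 * L)
    (ha : t0 * L ≤ t0 * A + G) (hb : t1 * L ≤ t1 * B + G) (hX : A + B + G ≤ X) :
    t0 + t1 + u ≤ X := by
  have one : ∀ {a C}, 0 < a → a * L ≤ a * C + G → L ≤ C + G := by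
    intro a C h h'
    by_contra hlt
    nlinarith
  have two : ∀ {a C}, 2 ≤ a → a * L ≤ a * C + G → 2 * L ≤ 2 * C + G := by
    intro a C h h'
    by_contra hlt
    nlinarith
  rcases Nat.lt_or_ge t0 2 with h | h
  · rcases Nat.eq_zero_or_pos t1 with h' | h'
    · have := one (by omega : 0 < t0) ha; omega
    · have := one h' hb; omega
  · rcases Nat.lt_or_ge t1 2 with h' | h'
    · have := one (by omega : 0 < t0) ha; omega
    · have := two h ha; have := two h' hb; omega

include hZ in
/-- Few vertices cannot cover the two family lines through a simple point. -/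
theorem budget_single (hg : 13 ≤ g) (hO : ∀ s, ¬Z.plane.Multi s O)
    {F : Finset (Cls Z × Key Ln g)} (hF : Z.CoversAt O F) (hm : nSplit g ≤ alpha g) :
    2 * alpha g + 3 + (if O ∈ Z.plane.pts Z.plane.inf then 1 else 0) ≤ F.card := by
  have hDcard := card_designated hm O hZ hO
  have hDF := card_designated_sdiff hm O (Z := Z) F
  have hX := count_all hm O hZ F
  have hk := fun s => count_side hm O hZ hF s
  have hT := fun s => card_missing_le hm O F (Z := Z) s
  set M := Finset.univ.image fun s : Bool => Z.cPart hm O s (Sum.inr none) with hM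
  have hM2 : (M \ F).card ≤ 2 :=
    (Finset.card_le_card Finset.sdiff_subset).trans (Finset.card_image_le.trans (by simp))
  have h1 := Finset.card_sdiff_add_card_inter (Z.designated hm O) F
  have h2 := Finset.card_sdiff_add_card_inter F (Z.designated hm O)
  rw [Finset.inter_comm] at h2
  have hg2 : 169 ≤ g ^ 2 := by nlinarith
  have hal : alpha g = g ^ 2 - 6 := rfl
  suffices hgoal : (Z.designated hm O \ F).card ≤ (F \ Z.designated hm O).card by omega
  rcases Nat.eq_zero_or_pos (missing Z hm O F false).card with h00 | h00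
  · rcases Nat.eq_zero_or_pos (missing Z hm O F true).card with h10 | h10
    · -- only marked vertices can be missing
      by_cases hall : ∃ s : Bool, Z.cPart hm O s (Sum.inr none) ∉ F
      · obtain ⟨s, hs⟩ := hall
        have h3 := card_cells_le hm O hZ hF s {Sum.inr none} (by simpa using hs)
        rw [card_cells O s, Finset.sum_singleton, card_line_mark O s] at h3
        have h4 : ∑ p ∈ F \ Z.designated hm O, served O hZ s {Sum.inr none} p ≤
            (F \ Z.designated hm O).card :=
          (Finset.sum_le_card_nsmul _ _ 1 fun p hp =>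
            (served_le hm O hZ s _ (Finset.mem_sdiff.1 hp).2).trans (by simp)).trans (by simp)
        have h5 := h3.trans h4
        omega
      · push Not at hall
        have : M \ F = ∅ := by
          rw [Finset.sdiff_eq_empty_iff_subset]
          intro p hp
          obtain ⟨s, -, rfl⟩ := Finset.mem_image.1 hp
          exact hall s
        rw [this, Finset.card_empty] at hDF
        omega
    · exact hDF.trans (side_arith (t := alpha g) (hT false) (hT true) (Or.inr h10) hM2
        (by omega) (by omega) (hk false) (hk true) hX)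
  · exact hDF.trans (side_arith (t := alpha g) (hT false) (hT true) (Or.inl h00) hM2
      (by omega) (by omega) (hk false) (hk true) hX)

end Setup

end Vale.Agent.P045.Ryser
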