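import Mathlib

/-!
Definitions for the disproof of Ryser's conjecture in the intersecting case
(see notes/P045/proof.md).

A projective plane of order `l * l` carries two line families (row lines and column lines), every
line of a family carries an index in `Fin (g ^ 4)` and a bit, and indices are seen through views.
-/

namespace Vale.Agent.P045.Ryser

open Classical

/-- The parameters: `l ^ 2` is the order of the plane, `g ^ 4` is the number of indices. -/
structure Params (g l R : ℕ) : Prop where
  big : 2 ^ 20 ≤ R
  gPrime : g.Prime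
  gLow : R ^ 4 < g
  gHigh : g ≤ 2 * R ^ 4
  lPrime : l.Prime
  lLow : g ^ 2 * R < l
  lHigh : l ≤ 2 * g ^ 2 * R

/-- A projective plane of order `l * l` with two families of `l * l + l + 1` lines such that every
point is on one or `l + 1` lines of each family, and a further line `inf`. -/
structure Plane (Pt Ln : Type) [Fintype Pt] [Fintype Ln] (l : ℕ) where
  pts : Ln → Finset Pt
  inf : Ln
  fam : Bool → Finset Ln
  card_pt : Fintype.card Pt = (l * l) * (l * l) + l * l + 1
  card_ln : Fintype.card Ln = (l * l) * (l * l) + l * l + 1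
  card_pts : ∀ h, (pts h).card = l * l + 1
  card_lines : ∀ x, (Finset.univ.filter fun h => x ∈ pts h).card = l * l + 1
  join : ∀ x y, x ≠ y → ∃! h, x ∈ pts h ∧ y ∈ pts h
  meet : ∀ h k, h ≠ k → ∃! x, x ∈ pts h ∧ x ∈ pts k
  card_fam : ∀ s, (fam s).card = l * l + l + 1
  disj : Disjoint (fam false) (fam true)
  inf_notMem : ∀ s, inf ∉ fam s
  mult : ∀ s x, ((fam s).filter fun h => x ∈ pts h).card = 1 ∨
    ((fam s).filter fun h => x ∈ pts h).card = l + 1

/-- The number of full views. -/
def alpha (g : ℕ) : ℕ := g ^ 2 - 6

/-- The number of split views other than the marked one. -/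
def nSplit (g : ℕ) : ℕ := 6 * g + 5

/-- Names of the views: full views (`none` is the group view) and split views (`none` is the
marked view). -/
abbrev View (g : ℕ) : Type := Option (Fin (alpha g)) ⊕ Option (Fin (nSplit g))

/-- A system of views on the indices: any two different indices agree in exactly one view. -/
structure Views (g : ℕ) where
  full : Option (Fin (alpha g)) → Fin (g ^ 4) → Fin (g ^ 2)
  split : Option (Fin (nSplit g)) → Fin (g ^ 4) → Fin (g ^ 3)
  card_full : ∀ i u, (Finset.univ.filter fun w => full i w = u).card = g ^ 2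
  card_split : ∀ j u, (Finset.univ.filter fun w => split j w = u).card = g
  agree : ∀ w w', w ≠ w' → ∃! o : View g,
    Sum.elim (fun i => full i w = full i w') (fun j => split j w = split j w') o

variable {Pt Ln : Type} [Fintype Pt] [Fintype Ln] {g l : ℕ}

/-- Two indices agree in a view. -/
def Views.Agree (U : Views g) (o : View g) (w w' : Fin (g ^ 4)) : Prop :=
  Sum.elim (fun i => U.full i w = U.full i w') (fun j => U.split j w = U.split j w') o

/-- The points on more than one line of a family. -/
def Plane.Multi (P : Plane Pt Ln l) (s : Bool) (x : Pt) : Prop :=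
  ((P.fam s).filter fun h => x ∈ P.pts h).card = l + 1

/-- The points off the line `inf` and off both multiple sets. -/
def Plane.Off (P : Plane Pt Ln l) (x : Pt) : Prop :=
  x ∉ P.pts P.inf ∧ ¬P.Multi false x ∧ ¬P.Multi true x

/-- A line of the family `s` through `x` (the only one, unless `x` is multiple). -/
noncomputable def Plane.lineOf (P : Plane Pt Ln l) (s : Bool) (x : Pt) : Ln :=
  @Classical.epsilon Ln ⟨P.inf⟩ fun h => h ∈ P.fam s ∧ x ∈ P.pts h

/-- The random data: an index and a bit for every line. -/
structure Setup (Pt Ln : Type) [Fintype Pt] [Fintype Ln] (g l : ℕ) where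
  plane : Plane Pt Ln l
  views : Views g
  idx : Ln → Fin (g ^ 4)
  sig : Ln → Bool

/-- The marked value of a line. -/
def Setup.star (Z : Setup Pt Ln g l) (h : Ln) : Fin (g ^ 3) := Z.views.split none (Z.idx h)

/-- The point set of the construction (the edges of the hypergraph). -/
def Setup.InS (Z : Setup Pt Ln g l) (x : Pt) : Prop :=
  Z.plane.Off x ∧ (Z.star (Z.plane.lineOf false x) = Z.star (Z.plane.lineOf true x) →
    Z.sig (Z.plane.lineOf false x) = Z.sig (Z.plane.lineOf true x))

/-- The properties of a good choice of the random data. -/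
structure Setup.Good (Z : Setup Pt Ln g l) (R : ℕ) : Prop where
  paired : ∀ x ∈ Z.plane.pts Z.plane.inf, ¬Z.plane.Multi false x → ¬Z.plane.Multi true x →
    Z.star (Z.plane.lineOf false x) = Z.star (Z.plane.lineOf true x) ∧
      Z.sig (Z.plane.lineOf false x) ≠ Z.sig (Z.plane.lineOf true x)
  rich : ∀ s, ∀ a ∈ Z.plane.fam s, ∀ w, ∃ x,
    Z.InS x ∧ x ∈ Z.plane.pts a ∧ Z.idx (Z.plane.lineOf (!s) x) = w
  classFull : ∀ s i u, ((Z.plane.fam s).filter fun h =>
    Z.views.full i (Z.idx h) = u).card * g ^ 2 ≤ 24 * (l * l)
  classSplit : ∀ s j u, ((Z.plane.fam s).filter fun h =>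
    Z.views.split j (Z.idx h) = u).card * g ^ 3 ≤ 24 * (l * l)
  pencilFull : ∀ s x i u, ((Z.plane.fam s).filter fun h =>
    x ∈ Z.plane.pts h ∧ Z.views.full i (Z.idx h) = u).card ≤ 8 * R + 8
  pencilSplit : ∀ s x j u, ((Z.plane.fam s).filter fun h =>
    x ∈ Z.plane.pts h ∧ Z.views.split j (Z.idx h) = u).card ≤ 8 * R + 8
  lineLarge : ∀ h, h ≠ Z.plane.inf → (∀ s, h ∉ Z.plane.fam s) →
    l * l ≤ 2 * ((Z.plane.pts h).filter fun x => Z.InS x).card

/-- The parts (classes) of the hypergraph: one per point of `inf`, two per full view, and one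
more for the marked view. -/
abbrev Cls (Z : Setup Pt Ln g l) : Type :=
  {x : Pt // x ∈ Z.plane.pts Z.plane.inf} ⊕ (Bool × Fin (alpha g)) ⊕ Unit

/-- The possible vertex names inside a part. -/
abbrev Key (Ln : Type) (g : ℕ) : Type :=
  (Ln × Option (Fin (g ^ 2))) ⊕ (Fin (g ^ 3) × Fin (g ^ 2)) ⊕
    (Fin (g ^ 3) × Fin (g ^ 3) × Option Bool)

/-- The line joining two points. -/
noncomputable def Plane.joinLine (P : Plane Pt Ln l) (x y : Pt) : Ln :=
  @Classical.epsilon Ln ⟨P.inf⟩ fun h => x ∈ P.pts h ∧ y ∈ P.pts h

/-- The key of a point in the class of a point of `inf`. -/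
noncomputable def Setup.dirKey (Z : Setup Pt Ln g l) (D : Pt) (x : Pt) : Key Ln g :=
  if Z.plane.joinLine x D ∈ Z.plane.fam false then
    Sum.inl (Z.plane.joinLine x D,
      some (Z.views.full none (Z.idx (Z.plane.lineOf true x))))
  else if Z.plane.joinLine x D ∈ Z.plane.fam true then
    Sum.inl (Z.plane.joinLine x D,
      some (Z.views.full none (Z.idx (Z.plane.lineOf false x))))
  else Sum.inl (Z.plane.joinLine x D, none)

/-- The key of a point in a slot: the full view `i` of the line of family `!s` together with the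
paired split view (or the whole line) of the family `s`. -/
noncomputable def Setup.slotKey (Z : Setup Pt Ln g l) (s : Bool) (i : Fin (alpha g)) (x : Pt) :
    Key Ln g :=
  if h : i.val < nSplit g then
    Sum.inr (Sum.inl (Z.views.split (some ⟨i.val, h⟩) (Z.idx (Z.plane.lineOf s x)),
      Z.views.full (some i) (Z.idx (Z.plane.lineOf (!s) x))))
  else Sum.inl (Z.plane.lineOf s x,
      some (Z.views.full (some i) (Z.idx (Z.plane.lineOf (!s) x))))

/-- The key of a point in the marked class. -/
noncomputable def Setup.markKey (Z : Setup Pt Ln g l) (x : Pt) : Key Ln g :=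
  Sum.inr (Sum.inr (Z.star (Z.plane.lineOf false x), Z.star (Z.plane.lineOf true x),
    if Z.star (Z.plane.lineOf false x) = Z.star (Z.plane.lineOf true x) then
      some (Z.sig (Z.plane.lineOf false x)) else none))

/-- The vertex of the edge of `x` in a class. -/
noncomputable def Setup.key (Z : Setup Pt Ln g l) (c : Cls Z) (x : Pt) : Key Ln g :=
  Sum.elim (fun D => Z.dirKey D.1 x)
    (Sum.elim (fun p => Z.slotKey p.1 p.2 x) (fun _ => Z.markKey x)) c

/-- Every point of the construction is in one of the chosen vertices. -/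
def Setup.Covers (Z : Setup Pt Ln g l) (C : Finset (Cls Z × Key Ln g)) : Prop :=
  ∀ x, Z.InS x → ∃ c : Cls Z, (c, Z.key c x) ∈ C

end Vale.Agent.P045.Ryser
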