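import Vale.Agent.P045.Ryser.Pins

/-!
Block A: a projective plane of order `l * l` with two disjoint Baer families of lines.

The points and lines are those of the projective plane over the field with `l ^ 2` elements. A
family consists of the lines of a Baer subplane, the image of the rational vectors under a linear
map; the second map is `theta + C` with a companion matrix `C` without rational eigenvalue.
-/

namespace Vale.Agent.P045.Ryser.PlaneBlock

open Classical Matrix Projectivization Configuration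
open scoped LinearAlgebra.Projectivization

variable {k K : Type} [Field k] [Field K] [Algebra k K]

/-- Rational vectors. -/
def iota : (Fin 3 → k) →ₗ[k] (Fin 3 → K) :=
  LinearMap.pi fun i => (Algebra.linearMap k K).comp (LinearMap.proj i)

/-- The twist by `theta + C`. -/
def twist (θ c : K) : (Fin 3 → K) →ₗ[K] (Fin 3 → K) where
  toFun v := ![θ * v 0 + v 1, θ * v 1 + v 2, θ * v 2 + c * v 0 + v 1]
  map_add' u v := by
    ext i
    fin_cases i <;> simp <;> ring
  map_smul' a v := by
    ext i
    fin_cases i <;> simp <;> ring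

/-- The two maps of the families. -/
def famMap (θ : K) (c : k) : Bool → (Fin 3 → k) →ₗ[k] (Fin 3 → K)
  | false => iota
  | true => (twist θ (algebraMap k K c)).restrictScalars k ∘ₗ iota

@[simp] lemma iota_apply (φ : Fin 3 → k) (i : Fin 3) :
    (iota φ : Fin 3 → K) i = algebraMap k K (φ i) := rfl

lemma iota_eq_smul {φ ψ : Fin 3 → k} (hψ : ψ ≠ 0) {a : K}
    (h : (iota φ : Fin 3 → K) = a • iota ψ) : ∃ b : k, φ = b • ψ := by
  obtain ⟨i, hi⟩ := Function.ne_iff.1 hψ
  refine ⟨φ i / ψ i, funext fun j => (algebraMap k K).injective ?_⟩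
  have hi' := congrFun h i
  have hj := congrFun h j
  simp only [Pi.smul_apply, iota_apply, smul_eq_mul] at hi' hj
  rw [Pi.smul_apply, smul_eq_mul, map_mul, map_div₀, hi', hj,
    mul_div_assoc, div_self ((map_ne_zero _).2 hi), mul_one]

lemma iota_injective : Function.Injective (iota : (Fin 3 → k) →ₗ[k] (Fin 3 → K)) :=
  fun _ _ h => funext fun i => (algebraMap k K).injective (congrFun h i)

lemma twist_injective {θ c : K} (h : θ ^ 3 - θ + c ≠ 0) : Function.Injective (twist θ c) := by
  rw [injective_iff_map_eq_zero]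
  intro v hv
  have e0 : θ * v 0 + v 1 = 0 := congrFun hv 0
  have e1 : θ * v 1 + v 2 = 0 := congrFun hv 1
  have e2 : θ * v 2 + c * v 0 + v 1 = 0 := congrFun hv 2
  have h0 : (θ ^ 3 - θ + c) * v 0 = 0 := by linear_combination e2 - θ * e1 + (θ ^ 2 - 1) * e0
  have v0 : v 0 = 0 := (mul_eq_zero.1 h0).resolve_left h
  rw [v0, mul_zero, zero_add] at e0
  rw [e0, mul_zero, zero_add] at e1
  ext i
  fin_cases i <;> assumption

lemma famMap_eq_smul {θ : K} {c : k} (h : θ ^ 3 - θ + algebraMap k K c ≠ 0) (s : Bool)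
    {φ ψ : Fin 3 → k} (hψ : ψ ≠ 0) {a : K} (he : famMap θ c s φ = a • famMap θ c s ψ) :
    ∃ b : k, φ = b • ψ := by
  cases s
  · exact iota_eq_smul hψ he
  · refine iota_eq_smul hψ (a := a) (twist_injective h ?_)
    rw [map_smul]
    exact he

lemma famMap_injective {θ : K} {c : k} (h : θ ^ 3 - θ + algebraMap k K c ≠ 0) (s : Bool) :
    Function.Injective (famMap θ c s) := by
  cases s
  · exact iota_injective
  · exact (twist_injective h).comp iota_injective

lemma famMap_span {θ : K} {c : k} (h : θ ^ 3 - θ + algebraMap k K c ≠ 0) (s : Bool)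
    {v : Fin 3 → K} (hv : ∀ φ, famMap θ c s φ ⬝ᵥ v = 0) : v = 0 := by
  have e0 := hv ![1, 0, 0]
  have e1 := hv ![0, 1, 0]
  have e2 := hv ![0, 0, 1]
  cases s
  · simp [famMap, dotProduct, Fin.sum_univ_three] at e0 e1 e2
    ext i
    fin_cases i <;> assumption
  · simp [famMap, twist, dotProduct, Fin.sum_univ_three] at e0 e1 e2
    have h2 : (θ ^ 3 - θ + algebraMap k K c) * v 2 = 0 := by
      linear_combination e0 - θ * e1 + (θ ^ 2) * e2
    have v2 : v 2 = 0 := (mul_eq_zero.1 h2).resolve_left h
    rw [v2, mul_zero, add_zero] at e2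
    rw [e2, v2] at e1
    simp at e1
    ext i
    fin_cases i <;> assumption

/-- The first family misses the second one. -/
lemma famMap_ne {θ : K} {c : k} (hroot : ∀ x : k, x ^ 3 - x ≠ c)
    (hθ : ∀ b : K, ∃ b0 b1 : k, b = algebraMap k K b0 + algebraMap k K b1 * θ)
    (hθ' : ∀ b0 b1 : k, algebraMap k K b0 + algebraMap k K b1 * θ = 0 → b0 = 0 ∧ b1 = 0)
    {φ ψ : Fin 3 → k} (hψ : ψ ≠ 0) {b : K} : b • famMap θ c false φ ≠ famMap θ c true ψ := by
  intro h
  obtain ⟨b0, b1, rfl⟩ := hθ b
  have key : ∀ {p q r s : k}, (algebraMap k K p + algebraMap k K q * θ) =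
      (algebraMap k K r + algebraMap k K s * θ) → p = r ∧ q = s := by
    intro p q r s e
    obtain ⟨h1, h2⟩ := hθ' (p - r) (q - s) (by rw [map_sub, map_sub]; linear_combination e)
    exact ⟨sub_eq_zero.1 h1, sub_eq_zero.1 h2⟩
  have c0 := congrFun h 0
  have c1 := congrFun h 1
  have c2 := congrFun h 2
  simp [famMap, twist] at c0 c1 c2
  obtain ⟨p0, q0⟩ := key (p := b0 * φ 0) (q := b1 * φ 0) (r := ψ 1) (s := ψ 0)
    (by rw [map_mul, map_mul]; linear_combination c0)
  obtain ⟨p1, q1⟩ := key (p := b0 * φ 1) (q := b1 * φ 1) (r := ψ 2) (s := ψ 1)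
    (by rw [map_mul, map_mul]; linear_combination c1)
  obtain ⟨p2, q2⟩ := key (p := b0 * φ 2) (q := b1 * φ 2) (r := c * ψ 0 + ψ 1) (s := ψ 2)
    (by rw [map_mul, map_mul, map_add, map_mul]; linear_combination c2)
  have hb : b1 ≠ 0 := by
    rintro rfl
    simp at q0 q1 q2
    exact hψ (funext fun i => by fin_cases i <;> simp [← q0, ← q1, ← q2])
  have hφ : φ 0 ≠ 0 := by
    intro e
    rw [e, mul_zero] at p0 q0
    rw [← p0] at q1
    have : φ 1 = 0 := (mul_eq_zero.1 q1).resolve_left hb
    rw [this, mul_zero] at p1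
    exact hψ (funext fun i => by fin_cases i <;> simp [← q0, ← p0, ← p1])
  -- `b0 / b1` is an eigenvalue
  refine hroot (b0 / b1) ?_
  have : b0 ^ 3 * φ 0 - b0 * b1 ^ 2 * φ 0 = c * b1 ^ 3 * φ 0 := by
    linear_combination (b0 ^ 2 - b1 ^ 2) * (p0 - q1) + b0 * b1 * (p1 - q2)
      + b1 ^ 2 * (p2 - c * q0 - q1)
  field_simp
  apply mul_right_cancel₀ hφ
  linear_combination this

/-- The lines of a family. -/
noncomputable def lineMap (Φ : (Fin 3 → k) →ₗ[k] (Fin 3 → K)) (hΦ : Function.Injective Φ) :
    ℙ k (Fin 3 → k) → ℙ K (Fin 3 → K) :=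
  fun p => mk K (Φ p.rep) ((map_ne_zero_iff _ hΦ).2 p.rep_nonzero)

lemma lineMap_orthogonal (Φ : (Fin 3 → k) →ₗ[k] (Fin 3 → K)) (hΦ : Function.Injective Φ)
    (p : ℙ k (Fin 3 → k)) {v : Fin 3 → K} (hv : v ≠ 0) :
    orthogonal (mk K v hv) (lineMap Φ hΦ p) ↔ Φ p.rep ⬝ᵥ v = 0 := by
  rw [lineMap, orthogonal_mk, dotProduct_comm]

lemma lineMap_injective (Φ : (Fin 3 → k) →ₗ[k] (Fin 3 → K)) (hΦ : Function.Injective Φ)
    (h : ∀ φ ψ : Fin 3 → k, ψ ≠ 0 → ∀ a : K, Φ φ = a • Φ ψ → ∃ b : k, φ = b • ψ) :
    Function.Injective (lineMap Φ hΦ) := by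
  intro p q hpq
  obtain ⟨a, ha⟩ := (mk_eq_mk_iff' K _ _ _ _).1 hpq
  obtain ⟨b, hb⟩ := h _ _ q.rep_nonzero a ha.symm
  rw [← mk_rep p, ← mk_rep q, mk_eq_mk_iff']
  exact ⟨b, hb.symm⟩

/-- The functional of a point on the rational vectors. -/
def dotMap (Φ : (Fin 3 → k) →ₗ[k] (Fin 3 → K)) (v : Fin 3 → K) : (Fin 3 → k) →ₗ[k] K where
  toFun φ := Φ φ ⬝ᵥ v
  map_add' _ _ := by rw [map_add, add_dotProduct]
  map_smul' a _ := by rw [map_smul, smul_dotProduct, RingHom.id_apply]

lemma card_lineMap_through [Finite k] (hK : Module.finrank k K = 2)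
    (Φ : (Fin 3 → k) →ₗ[k] (Fin 3 → K)) (hΦ : Function.Injective Φ)
    (hspan : ∀ v : Fin 3 → K, (∀ φ, Φ φ ⬝ᵥ v = 0) → v = 0) (x : ℙ K (Fin 3 → K)) :
    Nat.card {p // orthogonal x (lineMap Φ hΦ p)} = 1 ∨
      Nat.card {p // orthogonal x (lineMap Φ hΦ p)} = Nat.card k + 1 := by
  induction x with | h v hv =>
  have : FiniteDimensional k K := Module.finite_of_finrank_eq_succ hK
  let W := LinearMap.ker (dotMap Φ v)
  have hsum := (dotMap Φ v).finrank_range_add_finrank_ker
  rw [Module.finrank_fin_fun] at hsum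
  have hr : Module.finrank k (LinearMap.range (dotMap Φ v)) ≤ 2 :=
    (Submodule.finrank_le _).trans hK.le
  have hr0 : Module.finrank k (LinearMap.range (dotMap Φ v)) ≠ 0 := by
    rw [Ne, Submodule.finrank_eq_zero, LinearMap.range_eq_bot]
    exact fun e => hv (hspan v fun φ => congrArg (fun f => f φ) e)
  have e : ℙ k W ≃ {p // orthogonal (mk K v hv) (lineMap Φ hΦ p)} := by
    refine Equiv.ofBijective (fun w => ⟨map W.subtype W.injective_subtype w, ?_⟩) ⟨?_, ?_⟩
    · induction w with | h w hw =>
      rw [map_mk, lineMap_orthogonal]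
      obtain ⟨a, ha⟩ := exists_smul_eq_mk_rep k (W.subtype w)
        ((map_ne_zero_iff _ W.injective_subtype).2 hw)
      rw [← ha]
      show dotMap Φ v ((a : k) • (w : Fin 3 → k)) = 0
      rw [map_smul, w.2, smul_zero]
    · exact fun _ _ h => map_injective W.subtype W.injective_subtype (Subtype.mk.inj h)
    · rintro ⟨p, hp⟩
      rw [lineMap_orthogonal] at hp
      refine ⟨mk k ⟨p.rep, hp⟩ fun e => p.rep_nonzero (Subtype.mk.inj e), Subtype.ext ?_⟩
      simp only [map_mk]
      exact mk_rep _
  rw [← Nat.card_congr e]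
  rcases (show Module.finrank k W = 1 ∨ Module.finrank k W = 2 by
    simp only [W]
    omega) with h | h
  · left
    rw [card_of_finrank k W h]
    simp
  · exact Or.inr (card_of_finrank_two k W h)

end PlaneBlock

open Classical Matrix Configuration in
open scoped LinearAlgebra.Projectivization in
theorem planePin : PlanePin := by
  intro l hl h5
  have := Fact.mk hl
  let K := GaloisField l 2
  have : Fintype K := Fintype.ofFinite K
  have hcK : Nat.card K = l * l := by rw [GaloisField.card l 2 two_ne_zero, sq]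
  have hK : Module.finrank (ZMod l) K = 2 := GaloisField.finrank l two_ne_zero
  have hck : Nat.card (ZMod l) = l := Nat.card_zmod l
  obtain ⟨c, hc⟩ : ∃ c : ZMod l, ∀ x : ZMod l, x ^ 3 - x ≠ c := by
    by_contra hno
    simp only [not_exists, not_forall, not_not] at hno
    have hs : Function.Surjective fun x : ZMod l => x ^ 3 - x := hno
    exact zero_ne_one ((Finite.injective_iff_surjective.2 hs) (by ring : (0 : ZMod l) ^ 3 - 0 = 1 ^ 3 - 1))
  obtain ⟨θ, hθk, hθ3⟩ : ∃ θ : K, θ ∉ Set.range (algebraMap (ZMod l) K) ∧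
      θ ^ 3 - θ + algebraMap (ZMod l) K c ≠ 0 := by
    open Polynomial in
    let f : K[X] := X ^ 3 - X + C (algebraMap (ZMod l) K c)
    have hf : f.natDegree = 3 := by simp only [f]; compute_degree!
    by_contra hno
    simp only [not_exists, not_and, not_not] at hno
    have hsub : (Finset.univ : Finset K) ⊆
        Finset.univ.image (algebraMap (ZMod l) K) ∪ f.roots.toFinset := by
      intro x _
      by_cases hx : x ∈ Set.range (algebraMap (ZMod l) K)
      · obtain ⟨y, rfl⟩ := hx
        simp
      · refine Finset.mem_union_right _ (Multiset.mem_toFinset.2 ?_)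
        rw [Polynomial.mem_roots (Polynomial.ne_zero_of_natDegree_gt (n := 0) (by omega))]
        simpa [f] using hno x hx
    have h1 := (Finset.card_le_card hsub).trans (Finset.card_union_le _ _)
    rw [Finset.card_univ, ← Nat.card_eq_fintype_card, hcK] at h1
    have h2 : (Finset.univ.image (algebraMap (ZMod l) K)).card ≤ l :=
      Finset.card_image_le.trans (by simp)
    have h3 : f.roots.toFinset.card ≤ 3 :=
      f.roots.toFinset_card_le.trans (f.card_roots'.trans hf.le)
    nlinarith
  have hli : ∀ b0 b1 : ZMod l, algebraMap _ K b0 + algebraMap _ K b1 * θ = 0 → b0 = 0 ∧ b1 = 0 := by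
    intro b0 b1 e
    by_cases hb : b1 = 0
    · subst hb
      simp at e
      exact ⟨e, rfl⟩
    · refine absurd ⟨-b0 / b1, ?_⟩ hθk
      rw [map_div₀, map_neg, div_eq_iff ((map_ne_zero _).2 hb)]
      linear_combination -e
  have hgen : ∀ b : K, ∃ b0 b1 : ZMod l,
      b = algebraMap (ZMod l) K b0 + algebraMap (ZMod l) K b1 * θ := by
    let F : ZMod l × ZMod l → K := fun p => algebraMap _ K p.1 + algebraMap _ K p.2 * θ
    have hF : Function.Injective F := by
      intro p q e
      obtain ⟨h1, h2⟩ := hli (p.1 - q.1) (p.2 - q.2) (by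
        rw [map_sub, map_sub]; linear_combination e)
      exact Prod.ext (sub_eq_zero.1 h1) (sub_eq_zero.1 h2)
    have := hF.bijective_of_nat_card_le (by rw [hcK, Nat.card_prod, hck])
    intro b
    obtain ⟨⟨b0, b1⟩, hb⟩ := this.2 b
    exact ⟨b0, b1, hb.symm⟩
  let V := ℙ K (Fin 3 → K)
  have : Fintype V := Fintype.ofFinite V
  have hcV : Fintype.card V = (l * l) * (l * l) + l * l + 1 := by
    rw [← Nat.card_eq_fintype_card,
      Projectivization.card_of_finrank K (Fin 3 → K) (Module.finrank_fin_fun K), hcK]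
    simp [Finset.sum_range_succ]
    ring
  have hord : ProjectivePlane.order V V = l * l := by
    have h := ProjectivePlane.card_points V V
    rw [hcV, sq] at h
    rcases lt_trichotomy (ProjectivePlane.order V V) (l * l) with hlt | heq | hgt
    · nlinarith
    · exact heq
    · nlinarith
  have hinj := PlaneBlock.famMap_injective (c := c) hθ3
  let L : Bool → ℙ (ZMod l) (Fin 3 → ZMod l) → V := fun s => PlaneBlock.lineMap _ (hinj s)
  have hL : ∀ s, Function.Injective (L s) := fun s => PlaneBlock.lineMap_injective _ _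
    fun φ ψ hψ a e => PlaneBlock.famMap_eq_smul hθ3 s hψ e
  have : Fintype (ℙ (ZMod l) (Fin 3 → ZMod l)) := Fintype.ofFinite _
  let fam : Bool → Finset V := fun s => Finset.univ.image (L s)
  have hfam : ∀ s, (fam s).card = l * l + l + 1 := by
    intro s
    rw [Finset.card_image_of_injective _ (hL s), Finset.card_univ, ← Nat.card_eq_fintype_card,
      Projectivization.card_of_finrank _ _ (Module.finrank_fin_fun (ZMod l)), hck]
    simp [Finset.sum_range_succ]
    ring
  obtain ⟨h₀, hinf⟩ : ∃ h₀ : V, h₀ ∉ fam false ∪ fam true := by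
    by_contra hno
    simp only [not_exists, not_not] at hno
    have h1 := (Finset.card_le_card (fun x _ => hno x :
      (Finset.univ : Finset V) ⊆ fam false ∪ fam true)).trans (Finset.card_union_le _ _)
    rw [Finset.card_univ, hcV, hfam, hfam] at h1
    nlinarith [Nat.mul_le_mul h5 h5]
  refine ⟨V, V, inferInstance, inferInstance, ⟨{
    pts := fun h => Finset.univ.filter fun x => Projectivization.orthogonal x h
    inf := h₀
    fam := fam
    card_pt := hcV
    card_ln := hcV
    card_pts := ?_
    card_lines := ?_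
    join := ?_
    meet := ?_
    card_fam := hfam
    disj := ?_
    inf_notMem := ?_
    mult := ?_ }⟩⟩
  · intro h
    have := ProjectivePlane.pointCount_eq V h (L := V)
    rw [hord, pointCount, Nat.card_eq_fintype_card, Fintype.card_subtype] at this
    exact this
  · intro x
    have := ProjectivePlane.lineCount_eq V x (P := V)
    rw [hord, lineCount, Nat.card_eq_fintype_card, Fintype.card_subtype] at this
    refine Eq.trans ?_ this
    congr 1
    exact Finset.filter_congr fun h _ => Finset.mem_filter.trans (and_iff_right (Finset.mem_univ _))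
  · intro x y hxy
    simp only [Finset.mem_filter, Finset.mem_univ, true_and]
    exact HasLines.existsUnique_line V V x y hxy
  · intro h k hhk
    simp only [Finset.mem_filter, Finset.mem_univ, true_and]
    exact HasPoints.existsUnique_point V V h k hhk
  · rw [Finset.disjoint_left]
    intro x h1 h2
    obtain ⟨p, -, rfl⟩ := Finset.mem_image.1 h1
    obtain ⟨q, -, hq⟩ := Finset.mem_image.1 h2
    obtain ⟨a, ha⟩ := (Projectivization.mk_eq_mk_iff' K _ _ _ _).1 hq
    exact PlaneBlock.famMap_ne hc hgen hli q.rep_nonzero ha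
  · intro s hs
    apply hinf
    cases s
    · exact Finset.mem_union_left _ hs
    · exact Finset.mem_union_right _ hs
  · intro s x
    have e : ((fam s).filter fun h =>
        x ∈ Finset.univ.filter fun y => Projectivization.orthogonal y h) =
        (Finset.univ.filter fun p => Projectivization.orthogonal x (L s p)).image (L s) := by
      refine Finset.filter_image.trans (congrArg (Finset.image (L s)) ?_)
      exact Finset.filter_congr fun p _ => Finset.mem_filter.trans (and_iff_right (Finset.mem_univ _))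
    rw [e, Finset.card_image_of_injective _ (hL s), ← Fintype.card_subtype,
      ← Nat.card_eq_fintype_card]
    have := PlaneBlock.card_lineMap_through hK _ (hinj s)
      (fun v hv => PlaneBlock.famMap_span hθ3 s hv) x
    rwa [hck] at this

end Vale.Agent.P045.Ryser
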