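import Vale.Agent.P045.Ryser.Defs

/-!
Counting points of a line in a plane with two families.
-/

namespace Vale.Agent.P045.Ryser.Rand

open Classical

variable {Pt Ln : Type} [Fintype Pt] [Fintype Ln] {l : ℕ} {P : Plane Pt Ln l}

theorem fam_ne {s : Bool} {a b : Ln} (ha : a ∈ P.fam s) (hb : b ∈ P.fam (!s)) : a ≠ b := by
  rintro rfl
  cases s
  · exact Finset.disjoint_left.1 P.disj ha hb
  · exact Finset.disjoint_left.1 P.disj hb ha

theorem notMem_fam_not {s : Bool} {a : Ln} (ha : a ∈ P.fam s) : a ∉ P.fam (!s) :=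
  fun hb => fam_ne ha hb rfl

theorem ne_inf {s : Bool} {a : Ln} (ha : a ∈ P.fam s) : a ≠ P.inf :=
  fun e => P.inf_notMem s (e ▸ ha)

theorem point_eq {a b : Ln} (hab : a ≠ b) {x y : Pt} (hxa : x ∈ P.pts a) (hxb : x ∈ P.pts b)
    (hya : y ∈ P.pts a) (hyb : y ∈ P.pts b) : x = y :=
  (P.meet a b hab).unique ⟨hxa, hxb⟩ ⟨hya, hyb⟩

theorem card_inter {a b : Ln} (hab : a ≠ b) :
    ((P.pts a).filter fun x => x ∈ P.pts b).card = 1 := by
  obtain ⟨x, hx, hu⟩ := P.meet a b hab
  refine Finset.card_eq_one.2 ⟨x, Finset.eq_singleton_iff_unique_mem.2 ⟨Finset.mem_filter.2 hx,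
    fun y hy => hu y (Finset.mem_filter.1 hy)⟩⟩

theorem lineOf_spec (s : Bool) (x : Pt) :
    P.lineOf s x ∈ P.fam s ∧ x ∈ P.pts (P.lineOf s x) := by
  have h : ∃ h, h ∈ P.fam s ∧ x ∈ P.pts h := by
    have : ((P.fam s).filter fun h => x ∈ P.pts h).Nonempty := by
      rw [← Finset.card_pos]
      rcases P.mult s x with h | h <;> omega
    obtain ⟨h, hh⟩ := this
    exact ⟨h, Finset.mem_filter.1 hh⟩
  exact @Classical.epsilon_spec Ln _ h

theorem eq_lineOf {s : Bool} {x : Pt} {h : Ln} (hx : ¬P.Multi s x) (hh : h ∈ P.fam s)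
    (hxh : x ∈ P.pts h) : h = P.lineOf s x := by
  have h1 : ((P.fam s).filter fun k => x ∈ P.pts k).card = 1 :=
    (P.mult s x).resolve_right hx
  exact Finset.card_le_one.1 h1.le h (Finset.mem_filter.2 ⟨hh, hxh⟩) _
    (Finset.mem_filter.2 (lineOf_spec s x))

theorem off_not_multi {x : Pt} (hx : P.Off x) (s : Bool) : ¬P.Multi s x := by
  cases s
  exacts [hx.2.1, hx.2.2]

theorem sum_mult (s : Bool) (h : Ln) :
    ∑ x ∈ P.pts h, ((P.fam s).filter fun k => x ∈ P.pts k).card
      = (l * l + 1) + l * ((P.pts h).filter fun x => P.Multi s x).card := by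
  have e : ∀ x, ((P.fam s).filter fun k => x ∈ P.pts k).card
      = 1 + l * (if P.Multi s x then 1 else 0) := by
    intro x
    split_ifs with hx
    · rw [mul_one, add_comm]; exact hx
    · rw [mul_zero, add_zero]; exact (P.mult s x).resolve_right hx
  simp only [e, Finset.sum_add_distrib, Finset.sum_const, P.card_pts, smul_eq_mul, mul_one,
    ← Finset.mul_sum, Finset.sum_boole, Nat.cast_id]

theorem sum_mult' (s : Bool) (h : Ln) :
    ∑ x ∈ P.pts h, ((P.fam s).filter fun k => x ∈ P.pts k).card
      = (l * l + l + 1) + if h ∈ P.fam s then l * l else 0 := by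
  rw [Finset.sum_congr rfl fun x _ => Finset.card_filter (fun k => x ∈ P.pts k) (P.fam s),
    Finset.sum_comm]
  have e : ∀ k, (∑ x ∈ P.pts h, if x ∈ P.pts k then 1 else 0)
      = 1 + if k = h then l * l else 0 := by
    intro k
    rw [← Finset.card_filter]
    split_ifs with hk
    · rw [hk, Finset.filter_true_of_mem fun x hx => hx, P.card_pts, add_comm]
    · rw [card_inter (Ne.symm hk)]
  simp only [e, Finset.sum_add_distrib, Finset.sum_const, P.card_fam, smul_eq_mul, mul_one,
    Finset.sum_ite_eq']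

theorem card_multi_out {s : Bool} {h : Ln} (hl : 0 < l) (hh : h ∉ P.fam s) :
    ((P.pts h).filter fun x => P.Multi s x).card = 1 := by
  have := (sum_mult (P := P) s h).symm.trans (sum_mult' s h)
  rw [if_neg hh] at this
  exact Nat.eq_of_mul_eq_mul_left hl (by omega)

theorem card_multi_in {s : Bool} {h : Ln} (hl : 0 < l) (hh : h ∈ P.fam s) :
    ((P.pts h).filter fun x => P.Multi s x).card = l + 1 := by
  have := (sum_mult (P := P) s h).symm.trans (sum_mult' s h)
  rw [if_pos hh] at this
  refine Nat.eq_of_mul_eq_mul_left hl ?_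
  rw [mul_add, mul_one]
  omega

theorem card_off_add_three {h : Ln} (hi : h ≠ P.inf) :
    (P.pts h).card ≤ ((P.pts h).filter fun x => P.Off x).card + 1 +
      ((P.pts h).filter fun x => P.Multi false x).card +
      ((P.pts h).filter fun x => P.Multi true x).card := by
  rw [← card_inter (P := P) hi]
  refine le_trans (Finset.card_le_card (t := (P.pts h).filter (fun x => P.Off x) ∪
    (P.pts h).filter (fun x => x ∈ P.pts P.inf) ∪ (P.pts h).filter (fun x => P.Multi false x) ∪
    (P.pts h).filter (fun x => P.Multi true x)) fun x hx => ?_) ?_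
  · by_cases h1 : x ∈ P.pts P.inf
    · simp [hx, h1]
    · by_cases h2 : P.Multi false x
      · simp [hx, h2]
      · by_cases h3 : P.Multi true x
        · simp [hx, h3]
        · simp only [Finset.mem_union]
          exact Or.inl (Or.inl (Or.inl (Finset.mem_filter.2 ⟨hx, h1, h2, h3⟩)))
  · exact (Finset.card_union_le _ _).trans (Nat.add_le_add_right ((Finset.card_union_le _ _).trans
      (Nat.add_le_add_right (Finset.card_union_le _ _) _)) _)

theorem card_off_fam {s : Bool} {a : Ln} (hl : 4 ≤ l) (ha : a ∈ P.fam s) :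
    l * l ≤ 2 * ((P.pts a).filter fun x => P.Off x).card := by
  have h1 := card_off_add_three (P := P) (ne_inf ha)
  have h2 := card_multi_in (P := P) (by omega) ha
  have h3 := card_multi_out (P := P) (by omega) (notMem_fam_not ha)
  rw [P.card_pts] at h1
  have : 4 * l ≤ l * l := Nat.mul_le_mul_right l hl
  cases s <;> simp only [Bool.not_true, Bool.not_false] at h3 <;> omega

theorem card_off_line {h : Ln} (hl : 4 ≤ l) (hi : h ≠ P.inf) (hf : ∀ s, h ∉ P.fam s) :
    l * l ≤ ((P.pts h).filter fun x => P.Off x).card + 2 := by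
  have h1 := card_off_add_three (P := P) hi
  rw [P.card_pts, card_multi_out (by omega) (hf false), card_multi_out (by omega) (hf true)] at h1
  omega

/-- A family line through a point is one line or at most `l + 1` lines. -/
theorem card_pencil_le (s : Bool) (x : Pt) :
    ((P.fam s).filter fun h => x ∈ P.pts h).card ≤ l + 1 := by
  rcases P.mult s x with h | h <;> omega

end Vale.Agent.P045.Ryser.Rand
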