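import Mathlib

/-!
Uniform random functions on a finite type: boxes, union bounds and the elementary estimates.
-/

namespace Vale.Agent.P045.Ryser.Rand

open Classical

variable {ι X : Type} [Fintype ι] [Fintype X]

/-- The probability of an event for a uniform function. -/
noncomputable def Pr (E : (ι → X) → Prop) : ℝ :=
  ({o | E o} : Set (ι → X)).ncard / Fintype.card (ι → X)

theorem Pr_mono {E E' : (ι → X) → Prop} (h : ∀ o, E o → E' o) : Pr E ≤ Pr E' := by
  refine div_le_div_of_nonneg_right ?_ (Nat.cast_nonneg _)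
  exact_mod_cast Set.ncard_le_ncard (show ({o | E o} : Set (ι → X)) ⊆ {o | E' o} from h)

theorem Pr_biUnion {κ : Type*} (s : Finset κ) (E : κ → (ι → X) → Prop) :
    Pr (fun o => ∃ k ∈ s, E k o) ≤ ∑ k ∈ s, Pr (E k) := by
  simp only [Pr, ← Finset.sum_div]
  refine div_le_div_of_nonneg_right ?_ (Nat.cast_nonneg _)
  have e : ({o | ∃ k ∈ s, E k o} : Set (ι → X)) = ⋃ k ∈ s, {o | E k o} := by
    ext o
    simp
  rw [e]
  exact_mod_cast Finset.set_ncard_biUnion_le s fun k => {o | E k o}

/-- A union bound with a common bound. -/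
theorem Pr_biUnion_le {κ : Type*} (s : Finset κ) (E : κ → (ι → X) → Prop) {b : ℝ}
    (h : ∀ k ∈ s, Pr (E k) ≤ b) : Pr (fun o => ∃ k ∈ s, E k o) ≤ s.card * b :=
  (Pr_biUnion s E).trans ((Finset.sum_le_sum h).trans (by simp [Finset.sum_const]))

theorem Pr_or (E E' : (ι → X) → Prop) : Pr (fun o => E o ∨ E' o) ≤ Pr E + Pr E' := by
  simp only [Pr, ← add_div]
  refine div_le_div_of_nonneg_right ?_ (Nat.cast_nonneg _)
  exact_mod_cast Set.ncard_union_le {o | E o} {o | E' o}

theorem exists_not_of_Pr_lt [Nonempty X] {E : (ι → X) → Prop} (h : Pr E < 1) : ∃ o, ¬E o := by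
  by_contra hcon
  push Not at hcon
  have : Pr E = 1 := by
    rw [Pr, show ({o | E o} : Set (ι → X)) = Set.univ from Set.eq_univ_of_forall hcon,
      Set.ncard_univ, Nat.card_eq_fintype_card]
    exact div_self (Nat.cast_ne_zero.2 Fintype.card_ne_zero)
  linarith

/-- The probability of a box. -/
theorem Pr_box [Nonempty X] {κ : Type} (A : Finset κ) (v : κ → ι) (hv : Set.InjOn v A)
    (B : κ → Finset X) :
    Pr (fun o => ∀ a ∈ A, o (v a) ∈ B a) = ∏ a ∈ A, ((B a).card : ℝ) / Fintype.card X := by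
  let C : ι → Finset X := fun i =>
    if h : i ∈ A.image v then B (Finset.mem_image.1 h).choose else Finset.univ
  have hC : ∀ a ∈ A, C (v a) = B a := fun a ha => by
    have hm : v a ∈ A.image v := Finset.mem_image_of_mem v ha
    simp only [C, dif_pos hm]
    congr 1
    exact hv (Finset.mem_image.1 hm).choose_spec.1 ha (Finset.mem_image.1 hm).choose_spec.2
  have e : ({o | ∀ a ∈ A, o (v a) ∈ B a} : Set (ι → X)) = (Fintype.piFinset C : Finset _) := by
    ext o
    rw [Set.mem_ofPred_eq, Finset.mem_coe, Fintype.mem_piFinset]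
    constructor
    · intro h i
      by_cases hi : i ∈ A.image v
      · obtain ⟨a, ha, rfl⟩ := Finset.mem_image.1 hi
        rw [hC a ha]
        exact h a ha
      · simp only [C, dif_neg hi]
        exact Finset.mem_univ _
    · intro h
      exact fun a ha => hC a ha ▸ h (v a)
  have e2 : ∏ i, ((C i).card : ℝ) / Fintype.card X
      = ∏ a ∈ A, ((B a).card : ℝ) / Fintype.card X := by
    rw [← Finset.prod_subset (Finset.subset_univ (A.image v)), Finset.prod_image hv]
    · exact Finset.prod_congr rfl fun a ha => by rw [hC a ha]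
    · intro i _ hi
      simp only [C, dif_neg hi, Finset.card_univ]
      exact div_self (Nat.cast_ne_zero.2 Fintype.card_ne_zero)
  rw [Pr, e, Set.ncard_coe_finset, Fintype.card_piFinset, ← e2, Finset.prod_div_distrib, Nat.cast_prod,
    Fintype.card_fun]
  simp

/-- Many hits among few candidates. -/
theorem choose_mul_pow_le {N k : ℕ} {p c : ℝ} (hk : 0 < k) (hp : 0 ≤ p)
    (h : (N : ℝ) * p * Real.exp 1 ≤ c * k) :
    (N.choose k : ℝ) * p ^ k ≤ c ^ k := by
  have hk' : (0 : ℝ) < k := Nat.cast_pos.2 hk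
  have hf : (0 : ℝ) < k.factorial := Nat.cast_pos.2 k.factorial_pos
  have h1 : (N.choose k : ℝ) ≤ (N : ℝ) ^ k / k.factorial := Nat.choose_le_pow_div k N
  have h2 : (k : ℝ) ^ k / k.factorial ≤ Real.exp 1 ^ k := by
    rw [← Real.exp_nat_mul, mul_one]
    exact Real.pow_div_factorial_le_exp _ hk'.le k
  calc (N.choose k : ℝ) * p ^ k ≤ (N : ℝ) ^ k / k.factorial * p ^ k :=
        mul_le_mul_of_nonneg_right h1 (pow_nonneg hp k)
    _ = ((N : ℝ) * p / k) ^ k * ((k : ℝ) ^ k / k.factorial) := by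
        rw [div_pow, mul_pow, mul_div_assoc', div_mul_cancel₀ _ (pow_ne_zero k hk'.ne')]
        ring
    _ ≤ ((N : ℝ) * p / k) ^ k * Real.exp 1 ^ k :=
        mul_le_mul_of_nonneg_left h2 (by positivity)
    _ ≤ c ^ k := by
        rw [← mul_pow]
        refine pow_le_pow_left₀ (by positivity) ?_ k
        rw [div_mul_eq_mul_div, div_le_iff₀ hk']
        exact h

/-- A large subset without conflicts, when every element conflicts with at most two others. -/
theorem exists_indep {κ : Type*} (B : Finset κ) (Bad : κ → κ → Prop) (hsym : ∀ x y, Bad x y → Bad y x)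
    (hdeg : ∀ x ∈ B, ((B.filter fun y => y ≠ x ∧ Bad x y)).card ≤ 2) :
    ∃ I ⊆ B, (∀ x ∈ I, ∀ y ∈ I, x ≠ y → ¬Bad x y) ∧ B.card ≤ 3 * I.card := by
  let P : Finset (Finset κ) :=
    B.powerset.filter fun I => ∀ x ∈ I, ∀ y ∈ I, x ≠ y → ¬Bad x y
  have hne : P.Nonempty := ⟨∅, Finset.mem_filter.2 ⟨Finset.empty_mem_powerset B, by simp⟩⟩
  obtain ⟨I, hI, hmax⟩ := P.exists_max_image Finset.card hne
  obtain ⟨hIB, hind⟩ := Finset.mem_filter.1 hI
  rw [Finset.mem_powerset] at hIB
  refine ⟨I, hIB, hind, ?_⟩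
  have hcov : B ⊆ I ∪ I.biUnion fun x => B.filter fun y => y ≠ x ∧ Bad x y := by
    intro y hy
    by_contra hy'
    rw [Finset.mem_union, Finset.mem_biUnion, not_or] at hy'
    push Not at hy'
    have hno : ∀ x ∈ I, ¬Bad x y := fun x hx hb => by
      have hne : y ≠ x := fun e => hy'.1 (e ▸ hx)
      exact hy'.2 x hx (Finset.mem_filter.2 ⟨hy, hne, hb⟩)
    have := hmax (insert y I) (Finset.mem_filter.2 ⟨Finset.mem_powerset.2
      (Finset.insert_subset hy hIB), fun a ha c hc hac => by
        rcases Finset.mem_insert.1 ha with h1 | h1 <;> rcases Finset.mem_insert.1 hc with h2 | h2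
        · exact absurd (h1.trans h2.symm) hac
        · subst h1
          exact fun hb => hno c h2 (hsym _ _ hb)
        · subst h2
          exact hno a h1
        · exact hind a h1 c h2 hac⟩)
    rw [Finset.card_insert_of_notMem hy'.1] at this
    omega
  calc B.card ≤ I.card + ∑ x ∈ I, (B.filter fun y => y ≠ x ∧ Bad x y).card :=
        (Finset.card_le_card hcov).trans ((Finset.card_union_le _ _).trans
          (Nat.add_le_add_left Finset.card_biUnion_le _))
    _ ≤ I.card + ∑ _x ∈ I, 2 := Nat.add_le_add_left (Finset.sum_le_sum fun x hx => hdeg x (hIB hx)) _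
    _ = 3 * I.card := by rw [Finset.sum_const, smul_eq_mul]; ring

/-- An exponential beats a power. -/
theorem pow_lt_two_pow {R : ℕ} (hR : 2 ^ 20 ≤ R) : R ^ 100 * 2 ^ 10 < 2 ^ R := by
  set m := Nat.log 2 R
  have hm : 20 ≤ m := Nat.le_log_of_pow_le one_lt_two hR
  have h1 : R < 2 ^ (m + 1) := Nat.lt_pow_succ_log_self one_lt_two R
  have h2 : 2 ^ m ≤ R := Nat.pow_log_le_self 2 (by omega)
  have key : ∀ j, 20 ≤ j → 100 * (j + 1) + 10 ≤ 2 ^ j := by
    intro j hj
    induction j, hj using Nat.le_induction with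
    | base => norm_num
    | succ j _ ih => rw [pow_succ]; omega
  calc R ^ 100 * 2 ^ 10 < (2 ^ (m + 1)) ^ 100 * 2 ^ 10 :=
        Nat.mul_lt_mul_of_pos_right (Nat.pow_lt_pow_left h1 (by norm_num)) (by positivity)
    _ = 2 ^ ((m + 1) * 100 + 10) := by rw [← pow_mul, ← pow_add]
    _ ≤ 2 ^ R := Nat.pow_le_pow_right two_pos (((by linarith [key m hm] :
        (m + 1) * 100 + 10 ≤ 2 ^ m)).trans h2)

end Vale.Agent.P045.Ryser.Rand
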