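import Vale.Agent.P045.Ryser.RandPlane
import Vale.Agent.P045.Ryser.RandProb

/-!
The random variables: one value for each unpaired line and one for each pair of paired lines.
-/

namespace Vale.Agent.P045.Ryser.Rand

open Classical

variable {g : ℕ} (U : Views g)

/-- The values: two indices with the same marked value, and a bit. -/
abbrev Val : Type :=
  {p : (Fin (g ^ 4) × Fin (g ^ 4)) × Bool // U.split none p.1.1 = U.split none p.1.2}

/-- The index for a family. -/
def comp (s : Bool) (x : Val U) : Fin (g ^ 4) := if s then x.1.1.2 else x.1.1.1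

/-- The bit for a family. -/
def bit (s : Bool) (x : Val U) : Bool := if s then !x.1.2 else x.1.2

theorem card_comp_bit (s : Bool) (w : Fin (g ^ 4)) (b : Bool) :
    (Finset.univ.filter fun x : Val U => comp U s x = w ∧ bit U s x = b).card = g := by
  refine Eq.trans ?_ (U.card_split none (U.split none w))
  cases s
  · refine Finset.card_bij' (fun x _ => x.1.1.2)
      (fun w' hw' => ⟨((w, w'), b), ((Finset.mem_filter.1 hw').2).symm⟩) ?_ ?_ ?_ ?_
    · intro x hx
      obtain ⟨-, h1, -⟩ := Finset.mem_filter.1 hx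
      refine Finset.mem_filter.2 ⟨Finset.mem_univ _, ?_⟩
      rw [← h1]
      exact x.2.symm
    · intro w' hw'
      simp [comp, bit]
    · intro x hx
      obtain ⟨-, h1, h2⟩ := Finset.mem_filter.1 hx
      exact Subtype.ext (Prod.ext (Prod.ext h1.symm rfl) h2.symm)
    · intro w' hw'
      rfl
  · refine Finset.card_bij' (fun x _ => x.1.1.1)
      (fun w' hw' => ⟨((w', w), !b), (Finset.mem_filter.1 hw').2⟩) ?_ ?_ ?_ ?_
    · intro x hx
      obtain ⟨-, h1, -⟩ := Finset.mem_filter.1 hx
      refine Finset.mem_filter.2 ⟨Finset.mem_univ _, ?_⟩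
      rw [← h1]
      exact x.2
    · intro w' hw'
      simp [comp, bit]
    · intro x hx
      obtain ⟨-, h1, h2⟩ := Finset.mem_filter.1 hx
      refine Subtype.ext (Prod.ext (Prod.ext rfl h1.symm) ?_)
      simp [← h2, bit]
    · intro w' hw'
      rfl

theorem card_comp_mem (s : Bool) (T : Finset (Fin (g ^ 4))) :
    (Finset.univ.filter fun x : Val U => comp U s x ∈ T).card = T.card * 2 * g := by
  rw [Finset.card_eq_sum_card_fiberwise (f := fun x : Val U => (comp U s x, bit U s x))
    (t := T ×ˢ (Finset.univ : Finset Bool)) (fun x hx => by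
      simpa using (Finset.mem_filter.1 hx).2)]
  have e : ∀ q ∈ T ×ˢ (Finset.univ : Finset Bool),
      ((Finset.univ.filter fun x : Val U => comp U s x ∈ T).filter fun x =>
        (comp U s x, bit U s x) = q).card = g := by
    rintro ⟨w, b⟩ hq
    refine Eq.trans ?_ (card_comp_bit U s w b)
    rw [Finset.filter_filter]
    congr 1
    refine Finset.filter_congr fun x _ => ?_
    simp only [Prod.mk.injEq, and_iff_right_iff_imp]
    rintro ⟨rfl, -⟩
    exact (Finset.mem_product.1 hq).1
  rw [Finset.sum_congr rfl e]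
  simp

theorem card_val : Fintype.card (Val U) = 2 * g ^ 5 := by
  have h := card_comp_mem U false Finset.univ
  simp only [Finset.mem_univ, Finset.filter_true, Finset.card_univ, Fintype.card_fin] at h
  rw [h]
  ring

theorem nonempty_val (hg : 0 < g) : Nonempty (Val U) := by
  rw [← Fintype.card_pos_iff, card_val U]
  positivity

theorem prob_comp (hg : 0 < g) (s : Bool) (T : Finset (Fin (g ^ 4))) :
    ((Finset.univ.filter fun x : Val U => comp U s x ∈ T).card : ℝ) / Fintype.card (Val U)
      = T.card / (g : ℝ) ^ 4 := by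
  have : (g : ℝ) ≠ 0 := Nat.cast_ne_zero.2 hg.ne'
  rw [card_comp_mem U s T, card_val U]
  push_cast
  field_simp

theorem prob_miss (hg : 0 < g) (s : Bool) (w : Fin (g ^ 4)) (b : Bool) :
    ((Finset.univ.filter fun x : Val U => ¬(comp U s x = w ∧ bit U s x = b)).card : ℝ) /
      Fintype.card (Val U) = 1 - 1 / (2 * (g : ℝ) ^ 4) := by
  have h : ((Finset.univ.filter fun x : Val U => ¬(comp U s x = w ∧ bit U s x = b)).card : ℝ)
      = Fintype.card (Val U) - g := by
    have := Finset.card_filter_add_card_filter_not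
      (s := (Finset.univ : Finset (Val U))) (fun x => comp U s x = w ∧ bit U s x = b)
    rw [card_comp_bit U s w b, Finset.card_univ] at this
    have h2 := congrArg (Nat.cast : ℕ → ℝ) this
    push_cast at h2
    linarith
  have : (g : ℝ) ≠ 0 := Nat.cast_ne_zero.2 hg.ne'
  rw [h, card_val U]
  push_cast
  field_simp

variable {Pt Ln : Type} [Fintype Pt] [Fintype Ln] {l : ℕ} (P : Plane Pt Ln l)

/-- A column line whose point on `inf` is on exactly one line of each family. -/
def Paired (h : Ln) : Prop :=
  h ∈ P.fam true ∧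
    ∃ x ∈ P.pts P.inf, x ∈ P.pts h ∧ ¬P.Multi false x ∧ ¬P.Multi true x

/-- The variable of a line. -/
noncomputable def var (h : Ln) : Ln :=
  if hp : Paired P h then P.lineOf false hp.2.choose else h

/-- The index of a line. -/
noncomputable def mkIdx (o : Ln → Val U) (h : Ln) : Fin (g ^ 4) :=
  comp U (decide (h ∈ P.fam true)) (o (var P h))

/-- The bit of a line. -/
noncomputable def mkSig (o : Ln → Val U) (h : Ln) : Bool :=
  bit U (decide (h ∈ P.fam true)) (o (var P h))

/-- The data of an outcome. -/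
noncomputable def setup (o : Ln → Val U) : Setup Pt Ln g l :=
  Setup.mk P U (mkIdx U P o) (mkSig U P o)

theorem decide_fam {s : Bool} {h : Ln} (hh : h ∈ P.fam s) : decide (h ∈ P.fam true) = s := by
  cases s
  · exact decide_eq_false (notMem_fam_not hh)
  · exact decide_eq_true hh

theorem mkIdx_fam {s : Bool} {h : Ln} (hh : h ∈ P.fam s) (o : Ln → Val U) :
    mkIdx U P o h = comp U s (o (var P h)) := by rw [mkIdx, decide_fam P hh]

theorem mkSig_fam {s : Bool} {h : Ln} (hh : h ∈ P.fam s) (o : Ln → Val U) :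
    mkSig U P o h = bit U s (o (var P h)) := by rw [mkSig, decide_fam P hh]

theorem var_false {h : Ln} (hh : h ∈ P.fam false) : var P h = h :=
  dif_neg fun hp => fam_ne hh hp.1 rfl

theorem var_cases (h : Ln) :
    var P h = h ∨ ∃ x ∈ P.pts P.inf, x ∈ P.pts h ∧ ¬P.Multi false x ∧ ¬P.Multi true x ∧
      var P h = P.lineOf false x := by
  by_cases hp : Paired P h
  · exact Or.inr ⟨hp.2.choose, hp.2.choose_spec.1, hp.2.choose_spec.2.1, hp.2.choose_spec.2.2.1,
      hp.2.choose_spec.2.2.2, dif_pos hp⟩
  · exact Or.inl (dif_neg hp)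

theorem var_injOn (s : Bool) : Set.InjOn (var P) (P.fam s : Set Ln) := by
  intro h hh k hk e
  cases s
  · rwa [var_false P hh, var_false P hk] at e
  rcases var_cases P h with e1 | ⟨x, hx, hxh, hx0, hx1, e1⟩ <;>
    rcases var_cases P k with e2 | ⟨y, hy, hyk, hy0, hy1, e2⟩ <;> rw [e1, e2] at e
  · exact e
  · exact absurd e.symm (fam_ne (s := false) (lineOf_spec false y).1 hh)
  · exact absurd e (fam_ne (s := false) (lineOf_spec false x).1 hk)
  · have hxy : x = y := point_eq (ne_inf (lineOf_spec (P := P) false x).1)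
      (lineOf_spec false x).2 hx (e.symm ▸ (lineOf_spec false y).2) hy
    subst hxy
    exact (eq_lineOf hx1 hh hxh).trans (eq_lineOf hx1 hk hyk).symm

theorem var_ne {a b : Ln} (ha : a ∈ P.fam false) (hb : b ∈ P.fam true) {x : Pt}
    (hxa : x ∈ P.pts a) (hxb : x ∈ P.pts b) (hx : x ∉ P.pts P.inf) : var P a ≠ var P b := by
  rw [var_false P ha]
  rcases var_cases P b with e | ⟨y, hy, hyb, -, -, e⟩ <;> rw [e]
  · exact fam_ne (s := false) ha hb
  · intro hab
    have hya : y ∈ P.pts a := hab ▸ (lineOf_spec false y).2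
    exact hx (point_eq (fam_ne (s := false) ha hb) hya hyb hxa hxb ▸ hy)

theorem setup_paired (o : Ln → Val U) :
    ∀ x ∈ P.pts P.inf, ¬P.Multi false x → ¬P.Multi true x →
      (setup U P o).star (P.lineOf false x) = (setup U P o).star (P.lineOf true x) ∧
        mkSig U P o (P.lineOf false x) ≠ mkSig U P o (P.lineOf true x) := by
  intro x hx h0 h1
  have ha := (lineOf_spec (P := P) false x).1
  have hb := (lineOf_spec (P := P) true x).1
  have e : var P (P.lineOf true x) = var P (P.lineOf false x) := by
    have hp : Paired P (P.lineOf true x) := ⟨hb, x, hx, (lineOf_spec true x).2, h0, h1⟩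
    rw [var_false P ha, var, dif_pos hp]
    obtain ⟨c1, c2, -, -⟩ := hp.2.choose_spec
    rw [point_eq (ne_inf hb) c2 c1 (lineOf_spec true x).2 hx]
  refine ⟨?_, ?_⟩
  · show U.split none (mkIdx U P o _) = U.split none (mkIdx U P o _)
    rw [mkIdx_fam U P ha, mkIdx_fam U P hb, e]
    exact (o _).2
  · rw [mkSig_fam U P ha, mkSig_fam U P hb, e]
    simp [bit]

end Vale.Agent.P045.Ryser.Rand
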