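import Vale.Agent.P045.Ryser.Pins
import Vale.Agent.P045.Ryser.RandVar

/-!
A good choice of indices and bits exists (union bounds).
-/

namespace Vale.Agent.P045.Ryser.Rand

open Classical

variable {g l R : ℕ} {Pt Ln : Type} [Fintype Pt] [Fintype Ln]

theorem exp_neg_le_half (n : ℕ) : Real.exp (-(n : ℝ)) ≤ (1 / 2 : ℝ) ^ n := by
  rw [show -(n : ℝ) = n * (-1 : ℝ) by ring, Real.exp_nat_mul]
  refine pow_le_pow_left₀ (Real.exp_pos _).le ?_ n
  rw [Real.exp_neg, one_div]
  exact inv_anti₀ two_pos (by linarith [Real.add_one_le_exp (1 : ℝ)])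

theorem exp_one_le_three : Real.exp 1 ≤ 3 := Real.exp_one_lt_three.le

/-- The sizes following from the parameters. -/
structure Sizes (g l R : ℕ) : Prop where
  R_big : 2 ^ 20 ≤ R
  g_pos : 0 < g
  g_eight : 2 ^ 8 ≤ g
  l_big : 4 ≤ l
  q_low : g ^ 4 * R ^ 2 ≤ l * l
  l_high : l ≤ 2 * g ^ 2 * R
  g4_high : g ^ 4 ≤ R ^ 17
  q_high : l * l ≤ R ^ 19

theorem Sizes.of_params (h : Params g l R) : Sizes g l R := by
  obtain ⟨hR, -, hg0, hg1, -, hl0, hl1⟩ := h
  have hR64 : 64 ≤ R := le_trans (by norm_num) hR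
  have hR4 : R ≤ R ^ 4 := Nat.le_self_pow (by norm_num) R
  have hg4 : g ^ 4 ≤ 16 * R ^ 16 :=
    (Nat.pow_le_pow_left hg1 4).trans (le_of_eq (by ring))
  have hg4' : g ^ 4 ≤ R ^ 17 :=
    hg4.trans ((Nat.mul_le_mul_right _ (by omega : 16 ≤ R)).trans (le_of_eq (by ring)))
  have hgR : 0 < g ^ 2 := pow_pos (by omega) 2
  refine ⟨hR, by omega, by omega, ?_, ?_, hl1, hg4', ?_⟩
  · have : 1 * R ≤ g ^ 2 * R := Nat.mul_le_mul_right R hgR
    omega
  · calc g ^ 4 * R ^ 2 = (g ^ 2 * R) * (g ^ 2 * R) := by ring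
      _ ≤ l * l := Nat.mul_le_mul hl0.le hl0.le
  · calc l * l ≤ (2 * g ^ 2 * R) * (2 * g ^ 2 * R) := Nat.mul_le_mul hl1 hl1
      _ = 4 * g ^ 4 * R ^ 2 := by ring
      _ ≤ 4 * (16 * R ^ 16) * R ^ 2 := by gcongr
      _ = 64 * R ^ 18 := by ring
      _ ≤ R * R ^ 18 := Nat.mul_le_mul_right _ hR64
      _ = R ^ 19 := by ring

theorem Sizes.g_le_pow (h : Sizes g l R) {k : ℕ} (hk : k ≤ 4) : g ^ k ≤ R ^ 17 :=
  (Nat.pow_le_pow_right h.g_pos hk).trans h.g4_high

theorem Sizes.alpha_le (h : Sizes g l R) : alpha g + 1 ≤ R ^ 17 := by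
  have := h.g_le_pow (k := 2) (by norm_num)
  have := h.g_eight
  have : g * 1 ≤ g * g := Nat.mul_le_mul_left g h.g_pos
  rw [alpha]
  rw [sq] at *
  omega

theorem Sizes.nSplit_le (h : Sizes g l R) : nSplit g + 1 ≤ R ^ 17 := by
  have := h.g_le_pow (k := 2) (by norm_num)
  have : 2 ^ 8 * g ≤ g * g := Nat.mul_le_mul_right g h.g_eight
  have := h.g_eight
  rw [nSplit]
  rw [sq] at *
  omega

theorem Sizes.card_le (h : Sizes g l R) :
    (l * l) * (l * l) + l * l + 1 ≤ R ^ 39 := by
  have h1 : (l * l) * (l * l) ≤ R ^ 38 := by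
    calc (l * l) * (l * l) ≤ R ^ 19 * R ^ 19 := Nat.mul_le_mul h.q_high h.q_high
      _ = R ^ 38 := by ring
  have h2 : 16 ≤ l * l := le_trans (by norm_num) (Nat.mul_le_mul h.l_big h.l_big)
  have h3 : l * l * 1 ≤ (l * l) * (l * l) := Nat.mul_le_mul_left _ (by omega)
  have h4 : 3 * R ^ 38 ≤ R ^ 39 := by
    calc 3 * R ^ 38 ≤ R * R ^ 38 := Nat.mul_le_mul_right _ (le_trans (by norm_num) h.R_big)
      _ = R ^ 39 := by ring
  omega

/-- Few events of tiny probability. -/
theorem small_union (hs : Sizes g l R) {ι X κ : Type} [Fintype ι] [Fintype X] [Fintype κ]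
    (E : κ → (ι → X) → Prop) (hcard : Fintype.card κ ≤ R ^ 100)
    (h : ∀ k, Pr (E k) ≤ (1 / 2 : ℝ) ^ R) : Pr (fun o => ∃ k, E k o) ≤ (1 / 2 : ℝ) ^ 10 := by
  refine (Pr_mono (E' := fun o => ∃ k ∈ (Finset.univ : Finset κ), E k o)
    fun o ⟨k, hk⟩ => ⟨k, Finset.mem_univ k, hk⟩).trans ?_
  refine (Pr_biUnion_le _ E fun k _ => h k).trans ?_
  have h1 : ((Fintype.card κ : ℕ) : ℝ) * 2 ^ 10 ≤ 2 ^ R := by
    exact_mod_cast (Nat.mul_le_mul_right _ hcard).trans (pow_lt_two_pow hs.R_big).le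
  rw [Finset.card_univ, one_div, inv_pow, inv_pow, ← div_eq_mul_inv,
    div_le_iff₀ (by positivity), ← div_eq_inv_mul, le_div_iff₀ (by positivity)]
  exact h1

variable (U : Views g) (P : Plane Pt Ln l)

/-- Many lines of a family with indices in a small set. -/
theorem many_hits (hg : 0 < g) {s : Bool} {F : Finset Ln} (hF : F ⊆ P.fam s)
    (T : Finset (Fin (g ^ 4))) {k : ℕ} (hk : 0 < k) {c : ℝ}
    (h : (F.card : ℝ) * ((T.card : ℝ) / (g : ℝ) ^ 4) * Real.exp 1 ≤ c * k) :
    Pr (fun o : Ln → Val U => k ≤ (F.filter fun a => mkIdx U P o a ∈ T).card) ≤ c ^ k := by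
  have := nonempty_val U hg
  refine (Pr_mono (E' := fun o => ∃ A ∈ F.powersetCard k, ∀ a ∈ A,
    o (var P a) ∈ Finset.univ.filter fun x : Val U => comp U s x ∈ T) fun o ho => ?_).trans ?_
  · obtain ⟨A, hA, hAc⟩ := Finset.exists_subset_card_eq ho
    refine ⟨A, Finset.mem_powersetCard.2 ⟨hA.trans (Finset.filter_subset _ _), hAc⟩, fun a ha => ?_⟩
    obtain ⟨haF, haT⟩ := Finset.mem_filter.1 (hA ha)
    rw [mkIdx_fam U P (hF haF)] at haT
    exact Finset.mem_filter.2 ⟨Finset.mem_univ _, haT⟩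
  refine (Pr_biUnion_le (b := ((T.card : ℝ) / (g : ℝ) ^ 4) ^ k) _ _ fun A hA => le_of_eq ?_).trans ?_
  · obtain ⟨hAF, hAc⟩ := Finset.mem_powersetCard.1 hA
    rw [Pr_box A (var P) ((var_injOn P s).mono (Finset.coe_subset.2 (hAF.trans hF)))
      fun _ => Finset.univ.filter fun x : Val U => comp U s x ∈ T]
    rw [Finset.prod_congr rfl fun a _ => prob_comp U hg s T, Finset.prod_const, hAc]
  · rw [Finset.card_powersetCard]
    exact choose_mul_pow_le hk (by positivity) h

/-- The two sizes of the fibres. -/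
theorem fibre_full (i : Option (Fin (alpha g))) (u : Fin (g ^ 2)) (hg : 0 < g) :
    ((Finset.univ.filter fun w => U.full i w = u).card : ℝ) / (g : ℝ) ^ 4 = 1 / (g : ℝ) ^ 2 := by
  have : (g : ℝ) ≠ 0 := Nat.cast_ne_zero.2 hg.ne'
  rw [U.card_full i u]
  push_cast
  field_simp

theorem fibre_split (i : Option (Fin (nSplit g))) (u : Fin (g ^ 3)) (hg : 0 < g) :
    ((Finset.univ.filter fun w => U.split i w = u).card : ℝ) / (g : ℝ) ^ 4 = 1 / (g : ℝ) ^ 3 := by
  have : (g : ℝ) ≠ 0 := Nat.cast_ne_zero.2 hg.ne'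
  rw [U.card_split i u]
  field_simp

theorem class_bound (hs : Sizes g l R) {e : ℕ} (he : e ≤ 4) (s : Bool)
    (T : Finset (Fin (g ^ 4))) (hT : (T.card : ℝ) / (g : ℝ) ^ 4 = 1 / (g : ℝ) ^ e) :
    Pr (fun o : Ln → Val U =>
      24 * (l * l) < ((P.fam s).filter fun a => mkIdx U P o a ∈ T).card * g ^ e)
      ≤ (1 / 2 : ℝ) ^ R := by
  set k := 24 * (l * l) / g ^ e + 1 with hk
  have hge : 0 < g ^ e := pow_pos hs.g_pos e
  refine (Pr_mono (E' := fun o => k ≤ ((P.fam s).filter fun a => mkIdx U P o a ∈ T).card)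
    fun o ho => ?_).trans ?_
  · rw [hk]
    exact Nat.succ_le_of_lt (Nat.div_lt_of_lt_mul (lt_of_lt_of_eq ho (mul_comm _ _)))
  have hkq : 24 * (l * l) < k * g ^ e := by
    rw [hk]
    exact lt_of_lt_of_eq (Nat.lt_mul_div_succ _ hge) (mul_comm _ _)
  have hkR : R ≤ k := by
    refine Nat.le_of_mul_le_mul_right (le_trans ?_ hkq.le) hge
    calc R * g ^ e ≤ R ^ 2 * g ^ 4 :=
          Nat.mul_le_mul (Nat.le_self_pow (by norm_num) R) (Nat.pow_le_pow_right hs.g_pos he)
      _ = g ^ 4 * R ^ 2 := mul_comm _ _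
      _ ≤ 24 * (l * l) := hs.q_low.trans (Nat.le_mul_of_pos_left _ (by norm_num))
  refine (many_hits U P hs.g_pos (s := s) subset_rfl T (c := 1 / 2) (Nat.succ_pos _) ?_).trans
    (pow_le_pow_of_le_one (by norm_num) (by norm_num) hkR)
  rw [hT, P.card_fam s]
  have hN : ((l * l + l + 1 : ℕ) : ℝ) ≤ 2 * (l * l : ℕ) := by
    have : 4 * l ≤ l * l := Nat.mul_le_mul_right l hs.l_big
    have := hs.l_big
    exact_mod_cast (by omega : l * l + l + 1 ≤ 2 * (l * l))
  have hkq' : (24 : ℝ) * (l * l : ℕ) ≤ k * (g : ℝ) ^ e := by exact_mod_cast hkq.le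
  have hge' : (0 : ℝ) < (g : ℝ) ^ e := pow_pos (Nat.cast_pos.2 hs.g_pos) e
  calc ((l * l + l + 1 : ℕ) : ℝ) * (1 / (g : ℝ) ^ e) * Real.exp 1
      ≤ 2 * (l * l : ℕ) * (1 / (g : ℝ) ^ e) * 3 :=
        mul_le_mul (mul_le_mul_of_nonneg_right hN (by positivity)) exp_one_le_three
          (Real.exp_pos 1).le (by positivity)
    _ = 6 * (l * l : ℕ) / (g : ℝ) ^ e := by ring
    _ ≤ 1 / 2 * k := by
        rw [div_le_iff₀ hge']
        nlinarith

theorem pencil_bound (hs : Sizes g l R) {e : ℕ} (he : 2 ≤ e) (s : Bool) (x : Pt)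
    (T : Finset (Fin (g ^ 4))) (hT : (T.card : ℝ) / (g : ℝ) ^ 4 = 1 / (g : ℝ) ^ e) :
    Pr (fun o : Ln → Val U => 8 * R + 8 <
      (((P.fam s).filter fun a => x ∈ P.pts a).filter fun a => mkIdx U P o a ∈ T).card)
      ≤ (1 / 2 : ℝ) ^ R := by
  refine (many_hits U P hs.g_pos (s := s) (F := (P.fam s).filter fun a => x ∈ P.pts a)
    (Finset.filter_subset _ _) T (k := 8 * R + 9) (c := 3 / 4) (by omega) ?_).trans ?_
  · rw [hT]
    set n := ((P.fam s).filter fun a => x ∈ P.pts a).card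
    have hg1 : (1 : ℝ) ≤ (g : ℝ) := Nat.one_le_cast.2 hs.g_pos
    have hg2 : (0 : ℝ) < (g : ℝ) ^ 2 := by positivity
    have hl : (n : ℝ) ≤ (2 * (R : ℝ) + 1) * (g : ℝ) ^ 2 := by
      have h1 : n ≤ l + 1 := card_pencil_le s x
      have h2 := hs.l_high
      have h3 : 1 ≤ g ^ 2 := pow_pos hs.g_pos 2
      have : n ≤ (2 * R + 1) * g ^ 2 := by
        have : (2 * R + 1) * g ^ 2 = 2 * g ^ 2 * R + g ^ 2 := by ring
        omega
      exact_mod_cast this
    have hp : 1 / (g : ℝ) ^ e ≤ 1 / (g : ℝ) ^ 2 :=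
      one_div_le_one_div_of_le hg2 (pow_le_pow_right₀ hg1 he)
    calc (n : ℝ) * (1 / (g : ℝ) ^ e) * Real.exp 1
        ≤ (2 * (R : ℝ) + 1) * (g : ℝ) ^ 2 * (1 / (g : ℝ) ^ 2) * 3 :=
          mul_le_mul (mul_le_mul hl hp (by positivity) (by positivity)) exp_one_le_three
            (Real.exp_pos 1).le (by positivity)
      _ = 6 * (R : ℝ) + 3 := by field_simp; ring
      _ ≤ 3 / 4 * ((8 * R + 9 : ℕ) : ℝ) := by push_cast; linarith
  · calc (3 / 4 : ℝ) ^ (8 * R + 9) ≤ (3 / 4 : ℝ) ^ (8 * R) :=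
          pow_le_pow_of_le_one (by norm_num) (by norm_num) (Nat.le_add_right _ _)
      _ = ((3 / 4 : ℝ) ^ 8) ^ R := by rw [pow_mul]
      _ ≤ _ := pow_le_pow_left₀ (by positivity) (by norm_num) R

theorem bad_classFull (hs : Sizes g l R) :
    Pr (fun o : Ln → Val U => ¬∀ s i u, (((setup U P o).plane.fam s).filter fun h =>
      (setup U P o).views.full i ((setup U P o).idx h) = u).card * g ^ 2 ≤ 24 * (l * l))
      ≤ (1 / 2 : ℝ) ^ 10 := by
  refine (Pr_mono (E' := fun o => ∃ q : Bool × Option (Fin (alpha g)) × Fin (g ^ 2),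
    24 * (l * l) < ((P.fam q.1).filter fun a => mkIdx U P o a ∈
      Finset.univ.filter fun w => U.full q.2.1 w = q.2.2).card * g ^ 2) fun o ho => ?_).trans
    (small_union hs _ ?_ fun q => class_bound U P hs (by norm_num) q.1 _ (fibre_full U _ _ hs.g_pos))
  · push Not at ho
    obtain ⟨s, i, u, hu⟩ := ho
    refine ⟨(s, i, u), lt_of_lt_of_eq hu ?_⟩
    congr 2
    ext a
    simp [setup]
    exact Finset.mem_filter
  · simp only [Fintype.card_prod, Fintype.card_bool, Fintype.card_option, Fintype.card_fin]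
    calc 2 * ((alpha g + 1) * g ^ 2) ≤ R ^ 66 * (R ^ 17 * R ^ 17) :=
          Nat.mul_le_mul (le_trans (le_trans (by norm_num) hs.R_big) (Nat.le_self_pow (by norm_num) R))
            (Nat.mul_le_mul hs.alpha_le (hs.g_le_pow (by norm_num)))
      _ = R ^ 100 := by ring

theorem bad_classSplit (hs : Sizes g l R) :
    Pr (fun o : Ln → Val U => ¬∀ s j u, (((setup U P o).plane.fam s).filter fun h =>
      (setup U P o).views.split j ((setup U P o).idx h) = u).card * g ^ 3 ≤ 24 * (l * l))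
      ≤ (1 / 2 : ℝ) ^ 10 := by
  refine (Pr_mono (E' := fun o => ∃ q : Bool × Option (Fin (nSplit g)) × Fin (g ^ 3),
    24 * (l * l) < ((P.fam q.1).filter fun a => mkIdx U P o a ∈
      Finset.univ.filter fun w => U.split q.2.1 w = q.2.2).card * g ^ 3) fun o ho => ?_).trans
    (small_union hs _ ?_ fun q =>
      class_bound U P hs (by norm_num) q.1 _ (fibre_split U _ _ hs.g_pos))
  · push Not at ho
    obtain ⟨s, j, u, hu⟩ := ho
    refine ⟨(s, j, u), lt_of_lt_of_eq hu ?_⟩
    congr 2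
    ext a
    simp [setup]
    exact Finset.mem_filter
  · simp only [Fintype.card_prod, Fintype.card_bool, Fintype.card_option, Fintype.card_fin]
    calc 2 * ((nSplit g + 1) * g ^ 3) ≤ R ^ 66 * (R ^ 17 * R ^ 17) :=
          Nat.mul_le_mul (le_trans (le_trans (by norm_num) hs.R_big) (Nat.le_self_pow (by norm_num) R))
            (Nat.mul_le_mul hs.nSplit_le (hs.g_le_pow (by norm_num)))
      _ = R ^ 100 := by ring

theorem bad_pencilFull (hs : Sizes g l R) :
    Pr (fun o : Ln → Val U => ¬∀ s x i u, (((setup U P o).plane.fam s).filter fun h =>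
      x ∈ (setup U P o).plane.pts h ∧
        (setup U P o).views.full i ((setup U P o).idx h) = u).card ≤ 8 * R + 8)
      ≤ (1 / 2 : ℝ) ^ 10 := by
  refine (Pr_mono (E' := fun o => ∃ q : Bool × Pt × Option (Fin (alpha g)) × Fin (g ^ 2),
    8 * R + 8 < (((P.fam q.1).filter fun a => q.2.1 ∈ P.pts a).filter fun a => mkIdx U P o a ∈
      Finset.univ.filter fun w => U.full q.2.2.1 w = q.2.2.2).card) fun o ho => ?_).trans
    (small_union hs _ ?_ fun q =>
      pencil_bound U P hs (by norm_num) q.1 q.2.1 _ (fibre_full U _ _ hs.g_pos))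
  · push Not at ho
    obtain ⟨s, x, i, u, hu⟩ := ho
    refine ⟨(s, x, i, u), lt_of_lt_of_eq hu ?_⟩
    congr 1
    ext a
    simp [setup, and_assoc]
    exact Finset.mem_filter
  · simp only [Fintype.card_prod, Fintype.card_bool, Fintype.card_option, Fintype.card_fin,
      P.card_pt]
    calc 2 * (((l * l) * (l * l) + l * l + 1) * ((alpha g + 1) * g ^ 2))
        ≤ R ^ 27 * (R ^ 39 * (R ^ 17 * R ^ 17)) :=
          Nat.mul_le_mul (le_trans (le_trans (by norm_num) hs.R_big) (Nat.le_self_pow (by norm_num) R))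
            (Nat.mul_le_mul hs.card_le (Nat.mul_le_mul hs.alpha_le (hs.g_le_pow (by norm_num))))
      _ = R ^ 100 := by ring

theorem bad_pencilSplit (hs : Sizes g l R) :
    Pr (fun o : Ln → Val U => ¬∀ s x j u, (((setup U P o).plane.fam s).filter fun h =>
      x ∈ (setup U P o).plane.pts h ∧
        (setup U P o).views.split j ((setup U P o).idx h) = u).card ≤ 8 * R + 8)
      ≤ (1 / 2 : ℝ) ^ 10 := by
  refine (Pr_mono (E' := fun o => ∃ q : Bool × Pt × Option (Fin (nSplit g)) × Fin (g ^ 3),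
    8 * R + 8 < (((P.fam q.1).filter fun a => q.2.1 ∈ P.pts a).filter fun a => mkIdx U P o a ∈
      Finset.univ.filter fun w => U.split q.2.2.1 w = q.2.2.2).card) fun o ho => ?_).trans
    (small_union hs _ ?_ fun q =>
      pencil_bound U P hs (by norm_num) q.1 q.2.1 _ (fibre_split U _ _ hs.g_pos))
  · push Not at ho
    obtain ⟨s, x, j, u, hu⟩ := ho
    refine ⟨(s, x, j, u), lt_of_lt_of_eq hu ?_⟩
    congr 1
    ext a
    simp [setup, and_assoc]
    exact Finset.mem_filter
  · simp only [Fintype.card_prod, Fintype.card_bool, Fintype.card_option, Fintype.card_fin,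
      P.card_pt]
    calc 2 * (((l * l) * (l * l) + l * l + 1) * ((nSplit g + 1) * g ^ 3))
        ≤ R ^ 27 * (R ^ 39 * (R ^ 17 * R ^ 17)) :=
          Nat.mul_le_mul (le_trans (le_trans (by norm_num) hs.R_big) (Nat.le_self_pow (by norm_num) R))
            (Nat.mul_le_mul hs.card_le (Nat.mul_le_mul hs.nSplit_le (hs.g_le_pow (by norm_num))))
      _ = R ^ 100 := by ring

theorem bad_rich (hs : Sizes g l R) :
    Pr (fun o : Ln → Val U => ¬∀ s, ∀ a ∈ (setup U P o).plane.fam s, ∀ w, ∃ x,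
      (setup U P o).InS x ∧ x ∈ (setup U P o).plane.pts a ∧
        (setup U P o).idx ((setup U P o).plane.lineOf (!s) x) = w)
      ≤ (1 / 2 : ℝ) ^ 10 := by
  refine (Pr_mono (E' := fun o => ∃ q : Bool × Ln × Fin (g ^ 4) × Bool, q.2.1 ∈ P.fam q.1 ∧
    ∀ x ∈ (P.pts q.2.1).filter fun x => P.Off x, o (var P (P.lineOf (!q.1) x)) ∈
      Finset.univ.filter fun y : Val U => ¬(comp U (!q.1) y = q.2.2.1 ∧ bit U (!q.1) y = q.2.2.2))
    fun o ho => ?_).trans (small_union hs _ ?_ fun q => ?_)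
  · push Not at ho
    obtain ⟨s, a, ha, w, hw⟩ := ho
    refine ⟨(s, a, w, mkSig U P o a), ha, fun x hx => ?_⟩
    obtain ⟨hxa, hxo⟩ := Finset.mem_filter.1 hx
    refine Finset.mem_filter.2 ⟨Finset.mem_univ _, fun hgood => ?_⟩
    obtain ⟨g1, g2⟩ := hgood
    have hc := (lineOf_spec (P := P) (!s) x).1
    rw [← mkIdx_fam U P hc] at g1
    rw [← mkSig_fam U P hc] at g2
    refine hw x ⟨hxo, fun _ => ?_⟩ hxa g1
    have ea : a = P.lineOf s x := eq_lineOf (off_not_multi hxo s) ha hxa
    show mkSig U P o (P.lineOf false x) = mkSig U P o (P.lineOf true x)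
    cases s
    · rw [← ea]; exact g2.symm
    · rw [← ea]; exact g2
  · simp only [Fintype.card_prod, Fintype.card_bool, Fintype.card_fin, P.card_ln]
    calc 2 * (((l * l) * (l * l) + l * l + 1) * (g ^ 4 * 2))
        ≤ R ^ 22 * (R ^ 39 * (R ^ 17 * R ^ 22)) :=
          Nat.mul_le_mul (le_trans (le_trans (by norm_num) hs.R_big) (Nat.le_self_pow (by norm_num) R))
            (Nat.mul_le_mul hs.card_le (Nat.mul_le_mul hs.g4_high
              (le_trans (le_trans (by norm_num) hs.R_big) (Nat.le_self_pow (by norm_num) R))))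
      _ = R ^ 100 := by ring
  · obtain ⟨s, a, w, b⟩ := q
    have := nonempty_val U hs.g_pos
    by_cases ha : a ∈ P.fam s
    swap
    · refine (Pr_mono (E' := fun _ => False) fun o ho => ha ho.1).trans ?_
      simp [Pr]
    refine (Pr_mono (E' := fun o => ∀ x ∈ (P.pts a).filter fun x => P.Off x,
      o (var P (P.lineOf (!s) x)) ∈
        Finset.univ.filter fun y : Val U => ¬(comp U (!s) y = w ∧ bit U (!s) y = b))
      fun o ho => ho.2).trans ?_
    rw [Pr_box _ (fun x => var P (P.lineOf (!s) x)) ?inj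
      fun _ => Finset.univ.filter fun y : Val U => ¬(comp U (!s) y = w ∧ bit U (!s) y = b)]
    case inj =>
      intro x hx y hy e
      obtain ⟨hxa, -⟩ := Finset.mem_filter.1 hx
      obtain ⟨hya, -⟩ := Finset.mem_filter.1 hy
      have e' := var_injOn P (!s) (lineOf_spec (!s) x).1 (lineOf_spec (!s) y).1 e
      exact point_eq (fam_ne ha (lineOf_spec (!s) x).1) hxa (lineOf_spec (!s) x).2 hya
        (e' ▸ (lineOf_spec (!s) y).2)
    rw [Finset.prod_congr rfl fun x _ => prob_miss U hs.g_pos (!s) w b, Finset.prod_const]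
    set n := ((P.pts a).filter fun x => P.Off x).card with hn
    have hg1 : (1 : ℝ) ≤ (g : ℝ) ^ 4 := one_le_pow₀ (Nat.one_le_cast.2 hs.g_pos)
    have hp : (0 : ℝ) ≤ 1 - 1 / (2 * (g : ℝ) ^ 4) := by
      rw [sub_nonneg, div_le_one (by positivity)]
      linarith
    refine le_trans ?_ (exp_neg_le_half R)
    refine le_trans (pow_le_pow_left₀ hp (Real.one_sub_le_exp_neg _) n) ?_
    rw [← Real.exp_nat_mul, Real.exp_le_exp, mul_neg, neg_le_neg_iff, mul_one_div,
      le_div_iff₀ (by positivity)]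
    have h1 : g ^ 4 * R ^ 2 ≤ 2 * n := hs.q_low.trans (card_off_fam hs.l_big ha)
    have h2 : ((g : ℝ) ^ 4) * (R : ℝ) ^ 2 ≤ 2 * (n : ℝ) := by exact_mod_cast h1
    have h3 : (4 : ℝ) ≤ R := by
      exact_mod_cast le_trans (by norm_num) hs.R_big
    nlinarith [mul_le_mul_of_nonneg_left h3 (show (0:ℝ) ≤ (g : ℝ) ^ 4 * R by positivity)]

theorem bad_lineLarge (hs : Sizes g l R) :
    Pr (fun o : Ln → Val U => ¬∀ h, h ≠ (setup U P o).plane.inf →
      (∀ s, h ∉ (setup U P o).plane.fam s) →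
      l * l ≤ 2 * (((setup U P o).plane.pts h).filter fun x => (setup U P o).InS x).card)
      ≤ (1 / 2 : ℝ) ^ 10 := by
  have := nonempty_val U hs.g_pos
  -- the independent sets of a line
  set Ind : Ln → Finset (Finset Pt) := fun h => ((P.pts h).filter fun x => P.Off x).powerset.filter
    fun I => l * l ≤ 12 * I.card ∧
      ∀ x ∈ I, ∀ y ∈ I, x ≠ y → ∀ s t, var P (P.lineOf s x) ≠ var P (P.lineOf t y) with hInd
  refine (Pr_mono (E' := fun o => ∃ h : Ln, ∃ I ∈ Ind h, ∀ x ∈ I,
    (setup U P o).star (P.lineOf false x) = (setup U P o).star (P.lineOf true x))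
    fun o ho => ?_).trans (small_union hs _ ?_ fun h => ?_)
  · push Not at ho
    obtain ⟨h, hi, hf, hcard⟩ := ho
    change (∀ s, h ∉ P.fam s) at hf
    set O := (P.pts h).filter fun x => P.Off x
    set B := O.filter fun x =>
      (setup U P o).star (P.lineOf false x) = (setup U P o).star (P.lineOf true x) with hB
    have hO : l * l ≤ O.card + 2 := card_off_line hs.l_big hi hf
    have hsub : O \ B ⊆ (P.pts h).filter fun x => (setup U P o).InS x := by
      intro x hx
      obtain ⟨hxO, hxB⟩ := Finset.mem_sdiff.1 hx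
      obtain ⟨hxh, hxo⟩ := Finset.mem_filter.1 hxO
      exact Finset.mem_filter.2 ⟨hxh, hxo, fun e => absurd (Finset.mem_filter.2 ⟨hxO, e⟩) hxB⟩
    have h1 := (Finset.card_le_card hsub)
    have h2 : (O \ B).card + B.card = O.card :=
      Finset.card_sdiff_add_card_eq_card (Finset.filter_subset _ _)
    change 2 * ((P.pts h).filter fun x => (setup U P o).InS x).card < l * l at hcard
    have h16 : 4 * 4 ≤ l * l := Nat.mul_le_mul hs.l_big hs.l_big
    obtain ⟨I, hIB, hind, hI3⟩ := exists_indep B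
      (fun x y => ∃ s t, var P (P.lineOf s x) = var P (P.lineOf t y))
      (fun x y ⟨s, t, e⟩ => ⟨t, s, e.symm⟩) (fun x hx => by
        have inj : ∀ s x y, x ∈ B → y ∈ B → var P (P.lineOf s x) = var P (P.lineOf s y) → x = y := by
          intro s x y hx hy e
          have e' := var_injOn P s (lineOf_spec s x).1 (lineOf_spec s y).1 e
          have hxh := (Finset.mem_filter.1 (Finset.mem_filter.1 hx).1).1
          have hyh := (Finset.mem_filter.1 (Finset.mem_filter.1 hy).1).1
          exact point_eq (fun (e : h = P.lineOf s x) => hf s (e ▸ (lineOf_spec s x).1)) hxh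
            (lineOf_spec s x).2 hyh (e' ▸ (lineOf_spec s y).2)
        refine le_trans (Finset.card_le_card (t := (Finset.univ : Finset Bool).biUnion fun s =>
          B.filter fun y => var P (P.lineOf s x) = var P (P.lineOf (!s) y)) ?_) ?_
        · intro y hy
          simp only [Finset.mem_filter] at hy
          obtain ⟨hyB, hyx, s, t, e⟩ := hy
          refine Finset.mem_biUnion.2 ⟨s, Finset.mem_univ s, Finset.mem_filter.2 ⟨hyB, ?_⟩⟩
          cases s <;> cases t
          · exact absurd (inj false x y hx hyB e).symm hyx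
          · exact e
          · exact e
          · exact absurd (inj true x y hx hyB e).symm hyx
        · refine Finset.card_biUnion_le.trans ((Finset.sum_le_sum (g := fun _ => 1) fun s _ => ?_).trans
            (le_of_eq (by simp)))
          refine Finset.card_le_one.2 fun y hy z hz => ?_
          obtain ⟨hyB, ey⟩ := Finset.mem_filter.1 hy
          obtain ⟨hzB, ez⟩ := Finset.mem_filter.1 hz
          exact inj (!s) y z hyB hzB (ey.symm.trans ez))
    refine ⟨h, I, Finset.mem_filter.2 ⟨Finset.mem_powerset.2 (hIB.trans (Finset.filter_subset _ _)),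
      by omega, fun x hx y hy hxy s t e => hind x hx y hy hxy ⟨s, t, e⟩⟩, fun x hx =>
        (Finset.mem_filter.1 (hIB hx)).2⟩
  · rw [P.card_ln]
    exact hs.card_le.trans (Nat.pow_le_pow_right (le_trans (by norm_num) hs.R_big) (by norm_num))
  · refine (Pr_biUnion_le (Ind h) _ (b := (1 / 2 : ℝ) ^ (2 * (l * l))) fun I hI => ?_).trans ?_
    · obtain ⟨hIO, hIc, hind⟩ := Finset.mem_filter.1 hI
      rw [Finset.mem_powerset] at hIO
      let B : (I → Fin (g ^ 3)) → (I × Bool → Finset (Val U)) := fun c q => Finset.univ.filter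
        fun y : Val U => comp U q.2 y ∈ Finset.univ.filter fun w => U.split none w = c q.1
      refine (Pr_mono (E' := fun o => ∃ c ∈ (Finset.univ : Finset (I → Fin (g ^ 3))),
        ∀ q ∈ (Finset.univ : Finset (I × Bool)), o (var P (P.lineOf q.2 q.1.1)) ∈ B c q)
        fun o ho => ⟨fun x => (setup U P o).star (P.lineOf false x.1), Finset.mem_univ _,
          fun q _ => ?_⟩).trans ?_
      · obtain ⟨⟨x, hx⟩, s⟩ := q
        simp only [B, Finset.mem_filter, Finset.mem_univ, true_and]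
        rw [← mkIdx_fam U P (lineOf_spec s x).1]
        cases s
        · rfl
        · exact (ho x hx).symm
      refine (Pr_biUnion_le _ _ (b := (1 / (g : ℝ) ^ 3) ^ (I.card * 2)) fun c _ => le_of_eq ?_).trans ?_
      · rw [Pr_box _ (fun q : I × Bool => var P (P.lineOf q.2 q.1.1)) ?_ (B c)]
        · rw [Finset.prod_congr rfl fun q _ => (prob_comp U hs.g_pos q.2 _).trans
            (fibre_split U none _ hs.g_pos)]
          simp
        · rintro ⟨⟨x, hx⟩, s⟩ - ⟨⟨y, hy⟩, t⟩ - e
          change var P (P.lineOf s x) = var P (P.lineOf t y) at e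
          have hxy : x = y := by
            by_contra hne
            exact hind x hx y hy hne s t e
          subst hxy
          have hne : var P (P.lineOf false x) ≠ var P (P.lineOf true x) :=
            var_ne P (lineOf_spec false x).1 (lineOf_spec true x).1 (lineOf_spec false x).2
              (lineOf_spec true x).2 (Finset.mem_filter.1 (hIO hx)).2.1
          cases s <;> cases t
          · rfl
          · exact absurd e hne
          · exact absurd e.symm hne
          · rfl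
      have hg0 : (0 : ℝ) < (g : ℝ) ^ 3 := pow_pos (Nat.cast_pos.2 hs.g_pos) 3
      have e1 : ((Finset.univ : Finset (I → Fin (g ^ 3))).card : ℝ) *
          (1 / (g : ℝ) ^ 3) ^ (I.card * 2) = (1 / (g : ℝ) ^ 3) ^ I.card := by
        simp only [Finset.card_univ, Fintype.card_fun, Fintype.card_fin, Fintype.card_coe]
        push_cast
        rw [pow_mul', ← mul_pow]
        congr 1
        field_simp
      rw [e1]
      have h8 : (2 : ℝ) ^ 24 ≤ (g : ℝ) ^ 3 := by
        have : ((2 ^ 8 : ℕ) : ℝ) ≤ (g : ℝ) := Nat.cast_le.2 hs.g_eight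
        calc (2 : ℝ) ^ 24 = ((2 ^ 8 : ℕ) : ℝ) ^ 3 := by norm_num
          _ ≤ _ := pow_le_pow_left₀ (by positivity) this 3
      calc (1 / (g : ℝ) ^ 3) ^ I.card ≤ ((1 / 2 : ℝ) ^ 24) ^ I.card := by
            refine pow_le_pow_left₀ (by positivity) ?_ _
            rw [div_pow, one_pow]
            exact one_div_le_one_div_of_le (by positivity) h8
        _ ≤ _ := by
            rw [← pow_mul]
            exact pow_le_pow_of_le_one (by norm_num) (by norm_num) (by omega)
    · have hc : (Ind h).card ≤ 2 ^ (l * l + 1) := by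
        refine (Finset.card_filter_le _ _).trans ?_
        rw [Finset.card_powerset, ← P.card_pts h]
        exact Nat.pow_le_pow_right two_pos (Finset.card_filter_le _ _)
      have hqR : R + (l * l + 1) ≤ 2 * (l * l) := by
        have h1 : 1 * R ^ 2 ≤ l * l :=
          (Nat.mul_le_mul_right _ (pow_pos hs.g_pos 4)).trans hs.q_low
        have : R * 2 ≤ R ^ 2 := by
          rw [sq]
          exact Nat.mul_le_mul_left R (le_trans (by norm_num) hs.R_big)
        have := hs.R_big
        omega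
      calc ((Ind h).card : ℝ) * (1 / 2 : ℝ) ^ (2 * (l * l))
          ≤ (2 : ℝ) ^ (l * l + 1) * (1 / 2 : ℝ) ^ (R + (l * l + 1)) :=
            mul_le_mul (by exact_mod_cast hc)
              (pow_le_pow_of_le_one (by norm_num) (by norm_num) hqR) (by positivity) (by positivity)
        _ = (1 / 2 : ℝ) ^ R := by
            rw [pow_add _ R, mul_left_comm, ← mul_pow]
            norm_num

theorem randomPin : RandomPin := by
  intro g l R hp Pt Ln _ _ P U
  have hs := Sizes.of_params hp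
  have := nonempty_val U hs.g_pos
  obtain ⟨o, ho⟩ := exists_not_of_Pr_lt (ι := Ln) (X := Val U)
    (E := fun o =>
      (¬∀ s, ∀ a ∈ (setup U P o).plane.fam s, ∀ w, ∃ x,
        (setup U P o).InS x ∧ x ∈ (setup U P o).plane.pts a ∧
          (setup U P o).idx ((setup U P o).plane.lineOf (!s) x) = w) ∨
      (¬∀ s i u, (((setup U P o).plane.fam s).filter fun h =>
        (setup U P o).views.full i ((setup U P o).idx h) = u).card * g ^ 2 ≤ 24 * (l * l)) ∨
      (¬∀ s j u, (((setup U P o).plane.fam s).filter fun h =>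
        (setup U P o).views.split j ((setup U P o).idx h) = u).card * g ^ 3 ≤ 24 * (l * l)) ∨
      (¬∀ s x i u, (((setup U P o).plane.fam s).filter fun h =>
        x ∈ (setup U P o).plane.pts h ∧
          (setup U P o).views.full i ((setup U P o).idx h) = u).card ≤ 8 * R + 8) ∨
      (¬∀ s x j u, (((setup U P o).plane.fam s).filter fun h =>
        x ∈ (setup U P o).plane.pts h ∧
          (setup U P o).views.split j ((setup U P o).idx h) = u).card ≤ 8 * R + 8) ∨
      ¬∀ h, h ≠ (setup U P o).plane.inf → (∀ s, h ∉ (setup U P o).plane.fam s) →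
        l * l ≤ 2 * (((setup U P o).plane.pts h).filter fun x => (setup U P o).InS x).card) (by
      refine lt_of_le_of_lt ((Pr_or _ _).trans (add_le_add (bad_rich U P hs) ((Pr_or _ _).trans
        (add_le_add (bad_classFull U P hs) ((Pr_or _ _).trans (add_le_add (bad_classSplit U P hs)
          ((Pr_or _ _).trans (add_le_add (bad_pencilFull U P hs) ((Pr_or _ _).trans
            (add_le_add (bad_pencilSplit U P hs) (bad_lineLarge U P hs))))))))))) ?_
      norm_num)
  simp only [not_or, not_not] at ho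
  obtain ⟨h1, h2, h3, h4, h5, h6⟩ := ho
  exact ⟨mkIdx U P o, mkSig U P o, ⟨setup_paired U P o, h1, h2, h3, h4, h5, h6⟩⟩

end Vale.Agent.P045.Ryser.Rand

namespace Vale.Agent.P045.Ryser

/-- Block B2. -/
theorem randomPin : RandomPin := Rand.randomPin

end Vale.Agent.P045.Ryser
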