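import Vale.Agent.P045.Ryser.Pins

/-!
Block B1: systems of views.

Indices are pairs in a field `F` with `g ^ 2` elements, seen as a plane over the field with `g`
elements. A full view is a coordinate along a direction; six directions are refined by the `g + 1`
functionals on the first coordinate.
-/

namespace Vale.Agent.P045.Ryser.ViewsBlock

open Classical

variable {k : Type} [Field k]

/-- The functionals on a plane over a field, one for every line through the origin. -/
def proj : Option k → k × k → k
  | none, a => a.2
  | some κ, a => a.1 - κ * a.2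

/-- The complementary coordinates. -/
def other : Option k → k × k → k
  | none, a => a.1
  | some _, a => a.2

lemma proj_bijective (κ : Option k) : Function.Bijective fun a => (proj κ a, other κ a) := by
  cases κ with
  | none => exact Prod.swap_bijective
  | some κ =>
    refine Function.bijective_iff_has_inverse.2 ⟨fun a => (a.1 + κ * a.2, a.2), fun a => ?_,
      fun a => ?_⟩ <;> simp [proj, other]

lemma existsUnique_proj {a b : k × k} (h : a ≠ b) : ∃! κ, proj κ a = proj κ b := by
  by_cases h2 : a.2 = b.2
  · have h1 : a.1 ≠ b.1 := fun e => h (Prod.ext e h2)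
    refine ⟨none, h2, fun κ hκ => ?_⟩
    cases κ with
    | none => rfl
    | some κ => exact absurd (by simpa [proj, h2] using hκ) h1
  · refine ⟨some ((a.1 - b.1) / (a.2 - b.2)), ?_, fun κ hκ => ?_⟩
    · show a.1 - _ * a.2 = b.1 - _ * b.2
      field_simp [sub_ne_zero.2 h2]
      ring
    · cases κ with
      | none => exact absurd hκ h2
      | some κ =>
        simp only [proj] at hκ
        rw [Option.some_inj, eq_div_iff (sub_ne_zero.2 h2)]
        linear_combination -hκ

/-- A fibre of a view has as many elements as the values of the complementary coordinate. -/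
lemma card_fibre {N M : ℕ} {β : Type} [Fintype β] (f : Fin N → Fin M) (e : Fin N → β)
    (h : Function.Bijective fun w => (f w, e w)) (u : Fin M) :
    (Finset.univ.filter fun w => f w = u).card = Fintype.card β := by
  rw [← Finset.card_univ]
  refine Finset.card_bij (fun w _ => e w) (fun _ _ => Finset.mem_univ _) ?_ ?_
  · intro a ha b hb hab
    exact h.1 (Prod.ext ((Finset.mem_filter.1 ha).2.trans (Finset.mem_filter.1 hb).2.symm) hab)
  · intro y _
    obtain ⟨w, hw⟩ := h.2 (u, y)
    exact ⟨w, Finset.mem_filter.2 ⟨Finset.mem_univ _, (Prod.ext_iff.1 hw).1⟩, (Prod.ext_iff.1 hw).2⟩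

end ViewsBlock

open Classical ViewsBlock in
theorem viewsPin : ViewsPin := by
  intro g hg h13
  have := Fact.mk hg
  let F := GaloisField g 2
  have : Fintype F := Fintype.ofFinite F
  have hcF : Fintype.card F = g ^ 2 := by
    rw [← Nat.card_eq_fintype_card, GaloisField.card g 2 two_ne_zero]
  have hsix : 169 ≤ g ^ 2 := by nlinarith
  -- coordinates
  let co : F ≃ ZMod g × ZMod g := Fintype.equivOfCardEq (by rw [hcF]; simp [sq])
  let dir : F ≃ Fin 6 ⊕ Fin (alpha g) := Fintype.equivOfCardEq (by
    rw [hcF, Fintype.card_sum, Fintype.card_fin, Fintype.card_fin, alpha]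
    omega)
  let sidx : Option (Fin (nSplit g)) ≃ Fin 6 × Option (ZMod g) := Fintype.equivOfCardEq (by
    rw [Fintype.card_option, Fintype.card_fin, Fintype.card_prod, Fintype.card_fin,
      Fintype.card_option, ZMod.card, nSplit]
    ring)
  let eI : Fin (g ^ 4) ≃ F × F := Fintype.equivOfCardEq (by simp [hcF]; ring)
  let eF : F ≃ Fin (g ^ 2) := Fintype.equivOfCardEq (by simp [hcF])
  let eS : F × ZMod g ≃ Fin (g ^ 3) := Fintype.equivOfCardEq (by simp [hcF]; ring)
  let full : Option (Fin (alpha g)) → F × F → F := fun i w =>
    match i with
    | none => w.1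
    | some i => w.2 - dir.symm (Sum.inr i) * w.1
  let split : Option (Fin (nSplit g)) → F × F → F × ZMod g := fun j w =>
    (w.2 - dir.symm (Sum.inl (sidx j).1) * w.1, proj (sidx j).2 (co w.1))
  refine ⟨{
    full := fun i w => eF (full i (eI w))
    split := fun j w => eS (split j (eI w))
    card_full := ?_
    card_split := ?_
    agree := ?_ }⟩
  · intro i u
    refine Eq.trans ?_ hcF
    cases i with
    | none =>
      exact card_fibre _ (fun w => (eI w).2)
        ((eF.bijective.prodMap Function.bijective_id).comp eI.bijective) u
    | some i =>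
      refine card_fibre _ (fun w => (eI w).1) ?_ u
      have hb : Function.Bijective fun w : F × F => (w.2 - dir.symm (Sum.inr i) * w.1, w.1) :=
        Function.bijective_iff_has_inverse.2
          ⟨fun p => (p.2, p.1 + dir.symm (Sum.inr i) * p.2), fun p => by simp, fun p => by simp⟩
      exact ((eF.bijective.prodMap Function.bijective_id).comp hb).comp eI.bijective
  · intro j u
    refine (card_fibre _ (fun w => other (sidx j).2 (co (eI w).1)) ?_ u).trans (ZMod.card g)
    have hb : Function.Bijective fun w : F × F =>
        ((w.2 - dir.symm (Sum.inl (sidx j).1) * w.1, proj (sidx j).2 (co w.1)),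
          other (sidx j).2 (co w.1)) := by
      refine ⟨fun v w h => ?_, fun p => ?_⟩
      · obtain ⟨⟨h1, h2⟩, h3⟩ : (_ = _ ∧ _ = _) ∧ _ = _ := by simpa [Prod.ext_iff] using h
        have e := co.injective ((proj_bijective _).1 (Prod.ext h2 h3))
        exact Prod.ext e (by rw [e] at h1; simpa using h1)
      · obtain ⟨a, ha⟩ := (proj_bijective (sidx j).2).2 (p.1.2, p.2)
        refine ⟨(co.symm a, p.1.1 + dir.symm (Sum.inl (sidx j).1) * co.symm a), ?_⟩
        simp at ha
        simp [ha.1, ha.2]
    exact ((eS.bijective.prodMap Function.bijective_id).comp hb).comp eI.bijective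
  · intro w w' hne
    have hd : eI w ≠ eI w' := eI.injective.ne hne
    by_cases h1 : (eI w).1 = (eI w').1
    · have h2 : (eI w).2 ≠ (eI w').2 := fun e => hd (Prod.ext h1 e)
      refine ⟨Sum.inl none, by simpa [full] using h1, ?_⟩
      rintro (⟨_ | i⟩ | j) ho
      · rfl
      · simp [full, h1] at ho
        exact absurd ho h2
      · simp [split, h1] at ho
        exact absurd ho h2
    · have hsub : (eI w).1 - (eI w').1 ≠ 0 := sub_ne_zero.2 h1
      obtain ⟨t, ht⟩ : ∃ t : F, ∀ s : F,
          (eI w).2 - s * (eI w).1 = (eI w').2 - s * (eI w').1 ↔ s = t := by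
        refine ⟨((eI w).2 - (eI w').2) / ((eI w).1 - (eI w').1), fun s => ?_⟩
        rw [eq_div_iff hsub]
        constructor <;> intro h <;> linear_combination -h
      rcases hdir : dir t with a | i
      · obtain ⟨κ, hκ, hu⟩ := existsUnique_proj (co.injective.ne h1)
        have hta : dir.symm (Sum.inl a) = t := by rw [← hdir, Equiv.symm_apply_apply]
        refine ⟨Sum.inr (sidx.symm (a, κ)), ?_, ?_⟩
        · show eS _ = eS _
          simp [split, hta, hκ, (ht t).2 rfl]
        · rintro (⟨_ | i⟩ | j) ho
          · exact absurd (by simpa [full] using ho) h1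
          · simp [full, ht] at ho
            rw [← ho, Equiv.apply_symm_apply] at hdir
            exact absurd hdir (by simp)
          · simp [split, ht] at ho
            rw [← hta] at ho
            refine congrArg Sum.inr (sidx.injective ?_)
            rw [Equiv.apply_symm_apply]
            exact Prod.ext (Sum.inl_injective (dir.symm.injective ho.1)) (hu _ ho.2)
      · have hti : dir.symm (Sum.inr i) = t := by rw [← hdir, Equiv.symm_apply_apply]
        refine ⟨Sum.inl (some i), ?_, ?_⟩
        · show eF _ = eF _
          simp [full, hti, (ht t).2 rfl]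
        · rintro (⟨_ | i'⟩ | j) ho
          · exact absurd (by simpa [full] using ho) h1
          · simp [full, ht] at ho
            rw [← hti] at ho
            rw [Sum.inr_injective (dir.symm.injective ho)]
          · simp [split, ht] at ho
            rw [← hti] at ho
            exact absurd (dir.symm.injective ho.1) (by simp)

end Vale.Agent.P045.Ryser
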